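import Vale.Agent.N171G.Gas

/-! The finite-volume measures averaged over translations. -/

open MeasureTheory Bornology Filter Topology Set
open scoped ENNReal

namespace Vale.Agent.N171G

open Vale.Agent.P171

variable {φ : ℝ → ℝ} {β z B L : ℝ} {Λ Q : Set E3}

/-- The cube `[a, b]^3`. -/
def cube (a b : ℝ) : Set E3 := {x | ∀ i, a ≤ x i ∧ x i ≤ b}

theorem cube_eq (a b : ℝ) :
    cube a b = (WithLp.ofLp : E3 → Fin 3 → ℝ) ⁻¹' Icc (fun _ => a) (fun _ => b) := by
  ext x; simp [cube, Pi.le_def, forall_and]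

theorem measurableSet_cube (a b : ℝ) : MeasurableSet (cube a b) := by
  rw [cube_eq]; exact (PiLp.volume_preserving_ofLp (Fin 3)).measurable measurableSet_Icc

theorem volume_cube {a b : ℝ} (h : a ≤ b) : volume (cube a b) = ENNReal.ofReal ((b - a) ^ 3) := by
  rw [cube_eq, (PiLp.volume_preserving_ofLp (Fin 3)).measure_preimage
    measurableSet_Icc.nullMeasurableSet, Real.volume_Icc_pi]
  simp only [Finset.prod_const, Finset.card_univ, Fintype.card_fin]
  rw [ENNReal.ofReal_pow (sub_nonneg.2 h)]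

theorem measurableSet_box' (L : ℝ) : MeasurableSet (box L) := measurableSet_cube 0 L

theorem volume_box' (hL : 0 ≤ L) : volume (box L) = ENNReal.ofReal (L ^ 3) := by
  have h := volume_cube hL
  rwa [sub_zero] at h

theorem isBounded_cube (a b : ℝ) : IsBounded (cube a b) := by
  refine (Metric.isBounded_closedBall (x := (0 : E3)) (r := 3 * (|a| + |b|))).subset
    fun x hx => ?_
  rw [mem_closedBall_zero_iff]
  refine norm_le_of_coord fun i => abs_le.2 ⟨?_, ?_⟩
  · linarith [(hx i).1, neg_abs_le a, abs_nonneg b]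
  · linarith [(hx i).2, le_abs_self b, abs_nonneg a]

theorem volume_D_le (m : ℕ) : volume (D m) ≤ ENNReal.ofReal ((2 * m) ^ 3) := by
  have h := volume_cube (a := -(m : ℝ)) (b := m) (by linarith [Nat.cast_nonneg (α := ℝ) m])
  rw [sub_neg_eq_add, ← two_mul] at h
  rw [← h]
  exact measure_mono fun x hx i => ⟨(hx i).1, (hx i).2.le⟩

theorem volume_tr (v : E3) (A : Set E3) : volume (tr v A) = volume A := by
  rw [← measure_preimage_add_right volume (-v) A]
  simp only [← sub_eq_add_neg]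
  rfl

theorem setLIntegral_tr (v : E3) (A : Set E3) (g : E3 → ℝ≥0∞) :
    ∫⁻ u in tr v A, g u = ∫⁻ u in A, g (u + v) := by
  rw [← (measurePreserving_add_right (volume : Measure E3) v).setLIntegral_comp_preimage_emb
    (measurableEmbedding_addRight _)]
  have e : (fun x : E3 => x + v) ⁻¹' tr v A = A := by ext x; simp [tr]
  rw [e]

theorem shift_shift (u v : E3) (ω : Config) : shift v (shift u ω) = shift (u + v) ω := by
  refine Config.ext' ?_
  show _ '' (_ '' _) = _ '' _
  rw [image_image]; simp only [add_assoc]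

theorem shift_zero (ω : Config) : shift 0 ω = ω := Config.ext' (by simp [shift])

theorem restr_shift (u : E3) (A : Set E3) (ω : Config) :
    restr A (shift u ω) = shift u (restr (tr (-u) A) ω) := by
  refine Config.ext' (Set.ext fun y => ⟨?_, ?_⟩)
  · rintro ⟨⟨v, hv, rfl⟩, h⟩
    exact ⟨v, ⟨hv, by simpa [tr] using h⟩, rfl⟩
  · rintro ⟨v, hv, rfl⟩
    exact ⟨⟨v, hv.1, rfl⟩, by simpa [tr] using hv.2⟩

/-- The sum of `g` over the points of the configuration. -/
noncomputable def S (g : E3 → ℝ≥0∞) (ω : Config) : ℝ≥0∞ := ∑' v : ω.pts, g v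

theorem measurable_S {g : E3 → ℝ≥0∞} (hg : Measurable g) : Measurable (S g) :=
  measurable_tsum_enn (c := fun ω => ω) (g := fun _ => g) measurable_id (hg.comp measurable_snd)

theorem S_shift (g : E3 → ℝ≥0∞) (u : E3) (ω : Config) :
    S g (shift u ω) = S (fun y => g (y + u)) ω :=
  tsum_image g (add_left_injective u).injOn

theorem S_restr (g : E3 → ℝ≥0∞) (A : Set E3) (ω : Config) :
    S g (restr A ω) = S (A.indicator g) ω := by
  unfold S
  rw [tsum_subtype, tsum_subtype (f := A.indicator g), indicator_indicator]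
  rfl

theorem S_const {ω : Config} (h : ω.pts.Finite) (c : ℝ≥0∞) :
    S (fun _ => c) ω = (ω.pts.ncard : ℝ≥0∞) * c := by
  rw [S, ENNReal.tsum_set_const, ← h.cast_ncard_eq]; rfl

theorem S_indicator (hΛ : IsBounded Λ) (ω : Config) :
    S (Λ.indicator fun _ => 1) ω = NL Λ ω := by
  rw [← S_restr, S_const (ω.fin Λ hΛ), mul_one]; rfl

theorem measurable_NL (h : MeasurableSet Λ) (hΛ : IsBounded Λ) : Measurable (NL Λ) :=
  measurable_ncard h hΛ

theorem measurable_NL' (h : MeasurableSet Λ) (hΛ : IsBounded Λ) {α : Type*} [MeasurableSpace α]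
    (g : ℕ → α) : Measurable fun ω => g (NL Λ ω) :=
  (measurable_from_nat (f := g)).comp (measurable_NL h hΛ)

theorem countable_pts (η : Config) : η.pts.Countable := by
  refine (Set.countable_range fun k => dec (sec η k)).mono fun v hv => ?_
  obtain ⟨k, -, e⟩ := (mem_iff_sec η v).1 hv
  exact ⟨k, e⟩

/-- The Gibbs measure in `Q` with free boundary condition. -/
noncomputable def fin (φ : ℝ → ℝ) (β z : ℝ) (Q : Set E3) : Measure Config :=
  (gibbsSum φ β z Q emp 1)⁻¹ • gm φ β z Q emp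

theorem lintegral_fin (hm : Ms φ) (hQ : MeasurableSet Q) {F : Config → ℝ≥0∞}
    (hF : Measurable F) :
    ∫⁻ ω, F ω ∂fin φ β z Q = (gibbsSum φ β z Q emp 1)⁻¹ * gibbsSum φ β z Q emp F := by
  rw [fin, lintegral_smul_measure, lintegral_gm hm hQ hF, smul_eq_mul]

theorem emp_finite (Λ : Set E3) : (emp.pts \ Λ).Finite := finite_empty.sdiff

theorem prob_fin (h : Good φ B) (hβ : 0 ≤ β) (hz : 0 ≤ z) (hQ : MeasurableSet Q)
    (hV : volume Q ≠ ⊤) : IsProbabilityMeasure (fin φ β z Q) :=
  ⟨by rw [fin, Measure.smul_apply, gm_univ h.ms hQ, smul_eq_mul, ENNReal.inv_mul_cancel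
    (gibbsSum_ne_zero _) (gibbsSum_ne_top h hβ hz hQ hV (emp_finite _))]⟩

theorem ae_fin (hm : Ms φ) (hQ : MeasurableSet Q) :
    ∀ᵐ ω ∂fin φ β z Q, ω.pts.Finite ∧ ω.pts ⊆ Q := by
  have hS : Measurable (S (Qᶜ.indicator fun _ => 1)) :=
    measurable_S (measurable_const.indicator hQ.compl)
  have e : {ω : Config | ω.pts.Finite ∧ ω.pts ⊆ Q} =
      {ω : Config | ω.pts.Finite} ∩ S (Qᶜ.indicator fun _ => 1) ⁻¹' {0} := by
    ext ω
    simp [S, subset_def]
  have hA : MeasurableSet {ω : Config | ω.pts.Finite ∧ ω.pts ⊆ Q} := by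
    rw [e]; exact measurableSet_finite.inter (hS (measurableSet_singleton _))
  refine Measure.ae_smul_measure (mem_ae_iff.2 ?_) _
  rw [gm_apply hm hQ hA.compl, gibbsSum_congr (F' := fun _ => 0 * (1 : Config → ℝ≥0∞) emp) hQ,
    ← lintegral_gm hm hQ measurable_const]
  · simp
  · intro n x hx _
    rw [zero_mul]
    refine indicator_of_notMem (notMem_compl_iff.2 ?_) _
    show (glue Q x emp).pts.Finite ∧ (glue Q x emp).pts ⊆ Q
    rw [glue_emp]
    exact ⟨finite_range x, by rintro _ ⟨i, rfl⟩; exact hx i⟩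

theorem lintegral_fin_tr (hm : Ms φ) (hQ : MeasurableSet Q) {F : Config → ℝ≥0∞}
    (hF : Measurable F) (u : E3) :
    ∫⁻ ω, F (shift u ω) ∂fin φ β z Q = ∫⁻ ω, F ω ∂fin φ β z (tr u Q) := by
  have h1 : Measurable fun ω => F (shift u ω) := hF.comp (measurable_shift u)
  rw [lintegral_fin hm hQ h1, lintegral_fin hm (measurableSet_tr u hQ) hF, gibbsSum_tr,
    gibbsSum_tr]
  rfl

theorem fin_dlr (h : Good φ B) (hβ : 0 ≤ β) (hz : 0 ≤ z) (hQ : MeasurableSet Q)
    (hΛ : MeasurableSet Λ) (hV : volume Λ ≠ ⊤) (hs : Λ ⊆ Q) {F : Config → ℝ≥0∞}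
    (hF : Measurable F) :
    ∫⁻ ω, gibbsSum φ β z Λ ω F / gibbsSum φ β z Λ ω 1 ∂fin φ β z Q = ∫⁻ ω, F ω ∂fin φ β z Q := by
  have hG : Measurable fun ω => gibbsSum φ β z Λ ω F / gibbsSum φ β z Λ ω 1 :=
    (measurable_gibbsSum h.ms hΛ hF).div (measurable_gibbsSum h.ms hΛ measurable_one)
  rw [lintegral_fin h.ms hQ hG, lintegral_fin h.ms hQ hF, finite_dlr h hβ hz hQ hΛ hV hs hF]

/-- The free measure in `[0, L]^3`, averaged over the translations in `[-L, 1]^3`. -/
noncomputable def avg (φ : ℝ → ℝ) (β z L : ℝ) : Measure Config :=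
  (((volume (cube (-L) 1))⁻¹ • volume.restrict (cube (-L) 1)).prod (fin φ β z (box L))).map
    fun p => shift p.1 p.2

theorem volume_U (hL : 0 ≤ L) : volume (cube (-L) 1) = ENNReal.ofReal ((L + 1) ^ 3) := by
  rw [volume_cube (by linarith)]; congr 2; ring

theorem volume_U_ne (hL : 0 ≤ L) : volume (cube (-L) 1) ≠ 0 ∧ volume (cube (-L) 1) ≠ ⊤ := by
  rw [volume_U hL]
  exact ⟨(ENNReal.ofReal_pos.2 (by positivity)).ne', ENNReal.ofReal_ne_top⟩

/-- The mean density of the averaged measure. -/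
noncomputable def rho (φ : ℝ → ℝ) (β z L : ℝ) : ℝ≥0∞ :=
  (volume (cube (-L) 1))⁻¹ * ∫⁻ ω, (NL (box L) ω : ℝ≥0∞) ∂fin φ β z (box L)

/-- The relative volume of the boundary layer. -/
noncomputable def bad (c L : ℝ) : ℝ≥0∞ :=
  (volume (cube (-L) 1))⁻¹ * volume (cube (-L - c) (1 + c) \ cube (-L + c) (-c))

section
variable (h : Good φ B) (hβ : 0 ≤ β) (hz : 0 ≤ z) (hL : 0 ≤ L)
include h hβ hz hL

theorem prob_box : IsProbabilityMeasure (fin φ β z (box L)) :=
  prob_fin h hβ hz (measurableSet_box' L) (by rw [volume_box' hL]; exact ENNReal.ofReal_ne_top)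

theorem prob_avg : IsProbabilityMeasure (avg φ β z L) := by
  have := prob_box h hβ hz hL
  have : IsProbabilityMeasure ((volume (cube (-L) 1))⁻¹ • volume.restrict (cube (-L) 1)) :=
    ⟨by rw [Measure.smul_apply, Measure.restrict_apply_univ, smul_eq_mul,
      ENNReal.inv_mul_cancel (volume_U_ne hL).1 (volume_U_ne hL).2]⟩
  exact Measure.isProbabilityMeasure_map
    (Measurable.shift' measurable_fst measurable_snd).aemeasurable

theorem measurable_inner {F : Config → ℝ≥0∞} (hF : Measurable F) :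
    Measurable fun u => ∫⁻ ω, F (shift u ω) ∂fin φ β z (box L) := by
  have := prob_box h hβ hz hL
  exact Measurable.lintegral_prod_right' (f := fun q : E3 × Config => F (shift q.1 q.2))
    (hF.comp (Measurable.shift' measurable_fst measurable_snd))

theorem lintegral_avg {F : Config → ℝ≥0∞} (hF : Measurable F) :
    ∫⁻ ω, F ω ∂avg φ β z L = (volume (cube (-L) 1))⁻¹ *
      ∫⁻ u in cube (-L) 1, ∫⁻ ω, F (shift u ω) ∂fin φ β z (box L) := by
  have := prob_box h hβ hz hL
  have h1 : Measurable fun p : E3 × Config => shift p.1 p.2 :=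
    Measurable.shift' measurable_fst measurable_snd
  have h2 : Measurable fun p : E3 × Config => F (shift p.1 p.2) := hF.comp h1
  rw [avg, lintegral_map hF h1, lintegral_prod _ h2.aemeasurable, lintegral_smul_measure,
    smul_eq_mul]

theorem avg_S {g : E3 → ℝ≥0∞} (hg : Measurable g) :
    ∫⁻ ω, S g ω ∂avg φ β z L = (volume (cube (-L) 1))⁻¹ *
      ∫⁻ ω, S (fun y => ∫⁻ u in cube (-L) 1, g (y + u)) ω ∂fin φ β z (box L) := by
  have := prob_box h hβ hz hL
  have h1 : Measurable (Function.uncurry fun (u : E3) (ω : Config) => S g (shift u ω)) :=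
    (measurable_S hg).comp (Measurable.shift' measurable_fst measurable_snd)
  rw [lintegral_avg h hβ hz hL (measurable_S hg), lintegral_lintegral_swap h1.aemeasurable]
  congr 1
  refine lintegral_congr fun ω => ?_
  have := (countable_pts ω).to_subtype
  simp only [S_shift]
  exact lintegral_tsum fun v => (hg.comp (measurable_const.add measurable_id)).aemeasurable

theorem avg_S_le {g : E3 → ℝ≥0∞} (hg : Measurable g) :
    ∫⁻ ω, S g ω ∂avg φ β z L ≤ rho φ β z L * ∫⁻ y, g y := by
  rw [avg_S h hβ hz hL hg, rho, mul_assoc, ← lintegral_mul_const _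
    (measurable_NL' (measurableSet_box' L) (isBounded_cube 0 L) fun n => (n : ℝ≥0∞))]
  refine mul_le_mul_right (lintegral_mono_ae ?_) _
  filter_upwards [ae_fin h.ms (measurableSet_box' L)] with ω hω
  rw [NL, inter_eq_left.2 hω.2, ← S_const hω.1]
  refine ENNReal.tsum_le_tsum fun v => ?_
  exact (setLIntegral_le_lintegral _ _).trans (lintegral_add_left_eq_self g v).le

theorem avg_intensity : ∫⁻ ω, (NL (box 1) ω : ℝ≥0∞) ∂avg φ β z L = rho φ β z L := by
  have hb : IsBounded (box 1) := isBounded_cube 0 1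
  simp only [← S_indicator hb]
  rw [avg_S h hβ hz hL (measurable_const.indicator (measurableSet_box' 1)), rho]
  congr 1
  refine lintegral_congr_ae ?_
  filter_upwards [ae_fin h.ms (measurableSet_box' L)] with ω hω
  rw [NL, inter_eq_left.2 hω.2, ← mul_one (ω.pts.ncard : ℝ≥0∞), ← S_const hω.1]
  refine tsum_congr fun v => ?_
  have e : (fun u => (box 1).indicator (fun _ => (1 : ℝ≥0∞)) (v + u)) =
      (tr (-v) (box 1)).indicator 1 := by
    funext u
    by_cases hu : (v : E3) + u ∈ box 1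
    · rw [indicator_of_mem hu, indicator_of_mem (by simpa [tr, add_comm] using hu)]; rfl
    · rw [indicator_of_notMem hu, indicator_of_notMem (by simpa [tr, add_comm] using hu)]
  show ∫⁻ u in cube (-L) 1, _ = 1
  rw [e, lintegral_indicator_one (measurableSet_tr _ (measurableSet_box' 1)),
    Measure.restrict_apply (measurableSet_tr _ (measurableSet_box' 1)), inter_eq_left.2,
    volume_tr, volume_box' zero_le_one]
  · simp
  · intro u hu i
    have h1 := hu i
    have h2 := hω.2 v.2 i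
    simp only [sub_neg_eq_add, PiLp.add_apply] at h1
    constructor <;> linarith [h1.1, h1.2, h2.1, h2.2]

theorem avg_shift_le {F : Config → ℝ≥0∞} (hF : Measurable F) (h1 : ∀ ω, F ω ≤ 1) {v : E3}
    {c : ℝ} (hv : ∀ i, |v i| ≤ c) :
    ∫⁻ ω, F (shift v ω) ∂avg φ β z L ≤ ∫⁻ ω, F ω ∂avg φ β z L + bad c L := by
  have := prob_box h hβ hz hL
  have h2 : Measurable fun ω => F (shift v ω) := hF.comp (measurable_shift v)
  rw [lintegral_avg h hβ hz hL h2, lintegral_avg h hβ hz hL hF, bad, ← mul_add]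
  refine mul_le_mul_right ?_ _
  simp only [shift_shift]
  rw [← setLIntegral_tr v _ fun u => ∫⁻ ω, F (shift u ω) ∂fin φ β z (box L)]
  have h3 : tr v (cube (-L) 1) ⊆
      cube (-L) 1 ∪ (cube (-L - c) (1 + c) \ cube (-L + c) (-c)) := by
    intro u hu
    by_cases h4 : u ∈ cube (-L + c) (-c)
    · refine Or.inl fun i => ?_
      have h5 := (abs_nonneg _).trans (hv i)
      constructor <;> linarith [(h4 i).1, (h4 i).2]
    · refine Or.inr ⟨fun i => ?_, h4⟩
      have h5 := hu i
      have h6 := abs_le.1 (hv i)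
      simp only [PiLp.sub_apply] at h5
      constructor <;> linarith [h5.1, h5.2, h6.1, h6.2]
  refine (lintegral_mono_set h3).trans ((lintegral_union_le _ _ _).trans ?_)
  refine add_le_add_right ?_ _
  rw [← setLIntegral_one]
  refine lintegral_mono fun u => (lintegral_mono fun ω => h1 _).trans ?_
  simp

theorem avg_dlr_le (hΛ : MeasurableSet Λ) {m : ℕ} (hs : Λ ⊆ D m) {Φ G H : Config → ℝ≥0∞}
    (hΦ : Measurable Φ) (hG : Measurable G) (hH : Measurable H) (h1 : ∀ ω, Φ ω ≤ 1)
    (h2 : ∀ ω : Config, ω.pts.Finite →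
      Φ ω ≤ gibbsSum φ β z Λ ω G / gibbsSum φ β z Λ ω 1 + H ω) :
    ∫⁻ ω, Φ ω ∂avg φ β z L ≤ ∫⁻ ω, G ω ∂avg φ β z L + ∫⁻ ω, H ω ∂avg φ β z L + bad m L := by
  have := prob_box h hβ hz hL
  have hm0 : (0 : ℝ) ≤ m := Nat.cast_nonneg m
  rw [lintegral_avg h hβ hz hL hΦ, lintegral_avg h hβ hz hL hG, lintegral_avg h hβ hz hL hH, bad,
    ← mul_add, ← mul_add, ← lintegral_add_left (measurable_inner h hβ hz hL hG)]
  refine mul_le_mul_right ?_ _
  have h3 : cube (-L) 1 ⊆
      cube (-L + m) (-m) ∪ (cube (-L - m) (1 + m) \ cube (-L + m) (-m)) := by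
    intro u hu
    by_cases h4 : u ∈ cube (-L + m) (-m)
    · exact Or.inl h4
    · exact Or.inr ⟨fun i => by constructor <;> linarith [(hu i).1, (hu i).2], h4⟩
  have h4 : cube (-L + m) (-m) ⊆ cube (-L) 1 := fun u hu i => by
    constructor <;> linarith [(hu i).1, (hu i).2]
  refine (lintegral_mono_set h3).trans ((lintegral_union_le _ _ _).trans (add_le_add ?_ ?_))
  · refine le_trans (setLIntegral_mono' (measurableSet_cube _ _) fun u hu => ?_)
      (lintegral_mono_set h4)
    have hQ := measurableSet_tr u (measurableSet_box' L)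
    have hV : volume Λ ≠ ⊤ :=
      ne_top_of_le_ne_top ENNReal.ofReal_ne_top ((measure_mono hs).trans (volume_D_le m))
    have h5 : Λ ⊆ tr u (box L) := fun y hy i => by
      simp only [PiLp.sub_apply]
      constructor <;> linarith [(hu i).1, (hu i).2, (hs hy i).1, (hs hy i).2]
    rw [lintegral_fin_tr h.ms (measurableSet_box' L) hΦ,
      lintegral_fin_tr h.ms (measurableSet_box' L) hG,
      lintegral_fin_tr h.ms (measurableSet_box' L) hH, ← fin_dlr h hβ hz hQ hΛ hV h5 hG,
      ← lintegral_add_right _ hH]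
    refine lintegral_mono_ae ?_
    filter_upwards [ae_fin h.ms hQ] with ω hω using h2 ω hω.1
  · rw [← setLIntegral_one]
    refine lintegral_mono fun u => (lintegral_mono fun ω => h1 _).trans ?_
    simp

/-- The lattice vector `2 m k`. -/
noncomputable def vec (m : ℕ) (k : Fin 3 → ℤ) : E3 := WithLp.toLp 2 fun i => 2 * (m : ℝ) * k i

theorem blocks_bound {ζ c : ℝ} (hζ : z * Real.exp (β * B) ≤ ζ) (hc : 0 ≤ c) {m : ℕ}
    {f : Config → ℝ} (hf : Measurable f) (h0 : ∀ ω, 0 ≤ f ω) (hl : ∀ ω, f (restr (D m) ω) = f ω)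
    (hP : gibbsSum 0 1 ζ (D m) emp (fun ω => ENNReal.ofReal (Real.exp (f ω))) ≤
      ENNReal.ofReal (Real.exp c)) (T : Finset (Fin 3 → ℤ)) (u : E3) :
    ∑ k ∈ T, ∫⁻ ω, ENNReal.ofReal (f (shift (u + vec m k) ω)) ∂fin φ β z (box L) ≤
      ENNReal.ofReal (T.card * c + ζ * L ^ 3) := by
  have := prob_box h hβ hz hL
  have hζ0 : 0 ≤ ζ := le_trans (by positivity) hζ
  have hfk : ∀ k, Measurable fun ω => f (shift (u + vec m k) ω) := fun k =>
    hf.comp (measurable_shift _)
  rw [← lintegral_finsetSum T fun k _ => (hfk k).ennreal_ofReal]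
  simp only [← ENNReal.ofReal_sum_of_nonneg fun k _ => h0 _]
  have hs : Measurable fun ω => ∑ k ∈ T, f (shift (u + vec m k) ω) :=
    Finset.measurable_sum T fun k _ => hfk k
  refine jensen_upper _ hs (fun ω => Finset.sum_nonneg fun k _ => h0 _) (by positivity) ?_
  rw [lintegral_fin h.ms (measurableSet_box' L) hs.exp.ennreal_ofReal]
  refine (mul_le_of_le_one_left' (ENNReal.inv_le_one.2 (one_le_gibbsSum _))).trans ?_
  refine (gibbsSum_le_poisson h hβ hz (measurableSet_box' L) (emp_finite _) (ζ := ζ)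
    (by simpa [emp] using hζ) _).trans ?_
  simp only [Real.exp_sum, ENNReal.ofReal_prod_of_nonneg fun k _ => (Real.exp_pos _).le]
  refine (poisson_blocks hζ0 (fun k => tr (-(u + vec m k)) (D m))
    (fun k => measurableSet_tr _ (measurableSet_D m)) ?_
    (fun k ω => ENNReal.ofReal (Real.exp (f (shift (u + vec m k) ω))))
    (fun k => (hfk k).exp.ennreal_ofReal) (fun k ω => by rw [← restr_shift, hl]) T
    (measurableSet_box' L)).trans ?_
  · intro k l hkl
    refine disjoint_left.2 fun y h1 h2 => hkl (funext fun i => ?_)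
    have h3 := h1 i
    have h4 := h2 i
    simp only [sub_neg_eq_add, PiLp.add_apply, vec] at h3 h4
    have hm : (0 : ℝ) < m := by linarith [h3.1, h3.2]
    have h5 : (k i : ℝ) < l i + 1 := by nlinarith [h3.1, h3.2, h4.1, h4.2]
    have h6 : (l i : ℝ) < k i + 1 := by nlinarith [h3.1, h3.2, h4.1, h4.2]
    have h7 : k i < l i + 1 := by exact_mod_cast h5
    have h8 : l i < k i + 1 := by exact_mod_cast h6
    omega
  · rw [Real.exp_add, ENNReal.ofReal_mul (Real.exp_pos _).le, Real.exp_nat_mul,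
      ENNReal.ofReal_pow (Real.exp_pos _).le,
      poisson_one hζ0 (by rw [volume_box' hL]; exact ENNReal.ofReal_ne_top), volume_box' hL,
      ENNReal.toReal_ofReal (by positivity)]
    refine mul_le_mul_left (Finset.prod_le_pow_card _ _ _ fun k _ => ?_) _
    simpa only [gibbsSum_tr, shift_shift, neg_add_cancel, shift_zero] using hP

/-- The entropy bound: local observables with an exponential moment for the ideal gas have
bounded expectation, uniformly in the volume. -/
theorem avg_bound {ζ c : ℝ} (hζ : z * Real.exp (β * B) ≤ ζ) (hc : 0 ≤ c) {m : ℕ} (hm : 1 ≤ m)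
    (hmL : 2 * (m : ℝ) ≤ L)
    {f : Config → ℝ} (hf : Measurable f) (h0 : ∀ ω, 0 ≤ f ω) (hl : ∀ ω, f (restr (D m) ω) = f ω)
    (hP : gibbsSum 0 1 ζ (D m) emp (fun ω => ENNReal.ofReal (Real.exp (f ω))) ≤
      ENNReal.ofReal (Real.exp c)) :
    ∫⁻ ω, ENNReal.ofReal (f ω) ∂avg φ β z L ≤ ENNReal.ofReal (64 * c + ζ * (2 * m) ^ 3) := by
  have hζ0 : 0 ≤ ζ := le_trans (by positivity) hζ
  have hm1 : (1 : ℝ) ≤ m := by exact_mod_cast hm
  obtain ⟨M, hM⟩ : ∃ M : ℕ, M = ⌈L / (2 * m)⌉₊ := ⟨_, rfl⟩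
  have hM1 : L / (2 * m) ≤ M := by rw [hM]; exact Nat.le_ceil _
  have hM2 : (M : ℝ) ≤ L / (2 * m) + 1 := by
    rw [hM]; exact (Nat.ceil_lt_add_one (by positivity)).le
  rw [div_le_iff₀ (by positivity)] at hM1
  have hM3 : (M : ℝ) * (2 * m) ≤ L + 2 * m := by
    have := mul_le_mul_of_nonneg_right hM2 (show (0 : ℝ) ≤ 2 * m by positivity)
    rwa [add_mul, div_mul_cancel₀ _ (by positivity), one_mul] at this
  obtain ⟨T, hT⟩ : ∃ T : Finset (Fin 3 → ℤ),
    T = Fintype.piFinset fun _ => Finset.Icc (-(M : ℤ)) 1 := ⟨_, rfl⟩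
  have hcard : (T.card : ℝ) = (M + 2) ^ 3 := by
    rw [hT, Fintype.card_piFinset, Finset.prod_const, Finset.card_univ, Fintype.card_fin,
      Int.card_Icc]
    have : (1 + 1 - -(M : ℤ)).toNat = M + 2 := by omega
    rw [this]; push_cast; ring
  have hcov : cube (-L) 1 ⊆ ⋃ k : T, tr (vec m k) (D m) := by
    intro u hu
    refine mem_iUnion.2 ⟨⟨fun i => ⌊(u i + m) / (2 * m)⌋, ?_⟩, fun i => ?_⟩
    · rw [hT, Fintype.mem_piFinset]
      intro i
      rw [Finset.mem_Icc, Int.le_floor, Int.floor_le_iff, le_div_iff₀ (by positivity),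
        div_lt_iff₀ (by positivity)]
      push_cast
      constructor <;> linarith [(hu i).1, (hu i).2]
    · have h1 := Int.floor_le ((u i + m) / (2 * m))
      have h2 := Int.lt_floor_add_one ((u i + m) / (2 * m))
      rw [le_div_iff₀ (by positivity)] at h1
      rw [div_lt_iff₀ (by positivity)] at h2
      simp only [PiLp.sub_apply, vec]
      constructor <;> linarith
  have hg := measurable_inner h hβ hz hL hf.ennreal_ofReal
  rw [lintegral_avg h hβ hz hL hf.ennreal_ofReal]
  have h1 : ∫⁻ u in cube (-L) 1, ∫⁻ ω, ENNReal.ofReal (f (shift u ω)) ∂fin φ β z (box L) ≤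
      ENNReal.ofReal (T.card * c + ζ * L ^ 3) * ENNReal.ofReal ((2 * m) ^ 3) := by
    refine (lintegral_mono_set hcov).trans ((lintegral_iUnion_le _ _).trans ?_)
    simp only [setLIntegral_tr]
    rw [Finset.tsum_subtype T fun k => ∫⁻ u in D m,
      ∫⁻ ω, ENNReal.ofReal (f (shift (u + vec m k) ω)) ∂fin φ β z (box L),
      ← lintegral_finsetSum T (f := fun k u =>
        ∫⁻ ω, ENNReal.ofReal (f (shift (u + vec m k) ω)) ∂fin φ β z (box L))
        fun k _ => hg.comp (measurable_id.add_const _)]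
    refine (lintegral_mono fun u => blocks_bound h hβ hz hL hζ hc hf h0 hl hP T u).trans ?_
    rw [setLIntegral_const]
    exact mul_le_mul_right (volume_D_le m) _
  refine (mul_le_mul_right h1 _).trans ?_
  rw [volume_U hL, ← ENNReal.ofReal_mul (by positivity), ← ENNReal.ofReal_inv_of_pos
    (by positivity), ← ENNReal.ofReal_mul (by positivity)]
  refine ENNReal.ofReal_le_ofReal ?_
  rw [inv_mul_le_iff₀ (by positivity), hcard]
  have h2 : ((M : ℝ) + 2) ^ 3 * (2 * m) ^ 3 ≤ 64 * (L + 1) ^ 3 := by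
    rw [← mul_pow, show (64 : ℝ) * (L + 1) ^ 3 = (4 * (L + 1)) ^ 3 by ring]
    exact pow_le_pow_left₀ (by positivity) (by linarith) 3
  have h3 : L ^ 3 ≤ (L + 1) ^ 3 := by gcongr; linarith
  nlinarith [mul_le_mul_of_nonneg_left h2 hc,
    mul_le_mul_of_nonneg_left h3 (show 0 ≤ ζ * (2 * m) ^ 3 by positivity)]

end

theorem tendsto_ratio (a : ℝ) : Tendsto (fun L : ℝ => ((L + a) / (L + 1)) ^ 3) atTop (𝓝 1) := by
  have h1 : Tendsto (fun L : ℝ => 1 + (a - 1) / (L + 1)) atTop (𝓝 (1 + 0)) :=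
    tendsto_const_nhds.add (tendsto_const_nhds.div_atTop (tendsto_atTop_add_const_right _ _
      tendsto_id))
  have h2 := h1.pow 3
  rw [add_zero, one_pow] at h2
  refine h2.congr' ?_
  filter_upwards [eventually_gt_atTop 0] with L hL
  congr 1
  field_simp
  ring

theorem tendsto_bad {c : ℝ} (hc : 0 ≤ c) : Tendsto (bad c) atTop (𝓝 0) := by
  have h1 := ENNReal.tendsto_ofReal ((tendsto_ratio (1 + 2 * c)).sub (tendsto_ratio (-(2 * c))))
  rw [sub_self, ENNReal.ofReal_zero] at h1
  refine h1.congr' ?_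
  filter_upwards [eventually_ge_atTop (2 * c)] with L hL
  have hL0 : 0 ≤ L := by linarith
  have h2 : cube (-L + c) (-c) ⊆ cube (-L - c) (1 + c) := fun u hu i => by
    constructor <;> linarith [(hu i).1, (hu i).2]
  rw [bad, measure_sdiff h2 (measurableSet_cube _ _).nullMeasurableSet
    (by rw [volume_cube (by linarith)]; exact ENNReal.ofReal_ne_top), volume_U hL0,
    volume_cube (by linarith), volume_cube (by linarith),
    ← ENNReal.ofReal_sub _ (pow_nonneg (by linarith) _),
    ← ENNReal.ofReal_inv_of_pos (by positivity), ← ENNReal.ofReal_mul (by positivity)]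
  congr 1
  field_simp
  ring

end Vale.Agent.N171G
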