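import Vale.Agent.P171.Defs

open MeasureTheory Bornology
open scoped ENNReal

namespace Vale.Agent.N171G

open Vale.Agent.P171

/-- A configuration: a locally finite set of points of three-space. -/
structure Config where
  pts : Set E3
  fin : ∀ B : Set E3, IsBounded B → (pts ∩ B).Finite

/-- The usual σ-algebra of point processes: generated by the events that `B` contains exactly
`n` points, `B` a bounded Borel set. -/
instance : MeasurableSpace Config :=
  MeasurableSpace.generateFrom {A | ∃ (B : Set E3) (n : ℕ), MeasurableSet B ∧ IsBounded B ∧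
    A = {ω | (ω.pts ∩ B).ncard = n}}

/-- The configuration `ω + v`. -/
def shift (v : E3) (ω : Config) : Config where
  pts := (fun y => y + v) '' ω.pts
  fin B hB := by
    refine ((ω.fin _ (hB.add (isBounded_singleton (x := -v)))).image fun y => y + v).subset ?_
    rintro _ ⟨⟨y, hy, rfl⟩, h⟩
    exact ⟨y, ⟨hy, y + v, h, -v, rfl, by simp⟩, rfl⟩

/-- The configuration made of the points `x i` and of the points of `ω` outside `Λ`. -/
def glue (Λ : Set E3) {n : ℕ} (x : Fin n → E3) (ω : Config) : Config where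
  pts := Set.range x ∪ (ω.pts \ Λ)
  fin B hB := ((Set.finite_range x).union (ω.fin B hB)).subset (by
    rintro y ⟨h | h, hy⟩
    exacts [Or.inl h, Or.inr ⟨h.1, hy⟩])

/-- Interaction energy of a particle at `x` with the points of `ω` outside `Λ`. -/
noncomputable def field (φ : ℝ → ℝ) (Λ : Set E3) (ω : Config) (x : E3) : ℝ :=
  ∑' y : ↥(ω.pts \ Λ), φ ‖x - y‖

/-- The interaction of `ω` with every bounded region converges absolutely. -/
def Admissible (φ : ℝ → ℝ) (ω : Config) : Prop :=
  ∀ Λ : Set E3, IsBounded Λ → ∀ x ∈ Λ, Summable fun y : ↥(ω.pts \ Λ) => |φ ‖x - y‖|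

/-- The unnormalised Gibbs expectation of `F` in `Λ` with boundary configuration `ω`:
`∑_n z^n / n! ∫_{Λ^n} exp (-β (U_n(x) + ∑_i field (x i))) F (x ∪ (ω \ Λ)) dx`. -/
noncomputable def gibbsSum (φ : ℝ → ℝ) (β z : ℝ) (Λ : Set E3) (ω : Config)
    (F : Config → ℝ≥0∞) : ℝ≥0∞ :=
  ∑' n : ℕ, ENNReal.ofReal (z ^ n) * ((n.factorial : ℝ≥0∞)⁻¹ *
    ∫⁻ x in {x : Fin n → E3 | ∀ i, x i ∈ Λ},
      ENNReal.ofReal (Real.exp (-β * (energy φ x + ∑ i, field φ Λ ω (x i)))) * F (glue Λ x ω))

/-- `P` is an infinite-volume Gibbs point process for `φ` at `(β, z)`: a probability measure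
on configurations, carried by admissible ones, which satisfies the DLR equations in every
bounded Borel set `Λ`, the partition function in `Λ` being almost surely finite. -/
def IsGibbs (φ : ℝ → ℝ) (β z : ℝ) (P : Measure Config) : Prop :=
  IsProbabilityMeasure P ∧ (∀ᵐ ω ∂P, Admissible φ ω) ∧
    ∀ Λ : Set E3, MeasurableSet Λ → IsBounded Λ →
      (∀ᵐ ω ∂P, gibbsSum φ β z Λ ω 1 ≠ ⊤) ∧
      ∀ A : Set Config, MeasurableSet A →
        P A = ∫⁻ ω, gibbsSum φ β z Λ ω (A.indicator 1) / gibbsSum φ β z Λ ω 1 ∂P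

/-- Invariance under all translations of three-space. -/
def Invariant (P : Measure Config) : Prop := ∀ v : E3, P.map (shift v) = P

/-- The mean number of points in the unit cube. -/
noncomputable def intensity (P : Measure Config) : ℝ≥0∞ :=
  ∫⁻ ω, ((ω.pts ∩ box 1).ncard : ℝ≥0∞) ∂P

/-- Alternative (b) at inverse temperature `β`: for some `z > 0` there are two distinct
translation-invariant Gibbs point processes. -/
def Coexistence (φ : ℝ → ℝ) (β : ℝ) : Prop :=
  ∃ z : ℝ, 0 < z ∧ ∃ P Q : Measure Config,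
    IsGibbs φ β z P ∧ IsGibbs φ β z Q ∧ Invariant P ∧ Invariant Q ∧ P ≠ Q

end Vale.Agent.N171G
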