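import Vale.Agent.N171G.Meas

/-! The grand canonical sums: measurability, factorisation over disjoint regions, the DLR
equations in finite volume, comparison with the ideal gas. -/

open MeasureTheory Bornology Filter Topology Set
open scoped ENNReal

namespace Vale.Agent.N171G

open Vale.Agent.P171

variable {φ : ℝ → ℝ} {β z : ℝ} {Λ : Set E3}

/-- The measurability of the pair interaction. -/
def Ms (φ : ℝ → ℝ) : Prop := Measurable fun v : E3 => φ ‖v‖

theorem ms_of_isPotential (h : IsPotential φ) : Ms φ := by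
  refine measurable_of_restrict_of_restrict_compl (s := {0}ᶜ)
    (measurableSet_singleton 0).compl ?_ ?_
  · have h1 : Measurable fun v : ({0}ᶜ : Set E3) =>
        (⟨‖(v : E3)‖, norm_pos_iff.2 v.2⟩ : Ioi (0 : ℝ)) :=
      (measurable_subtype_coe.norm).subtype_mk
    exact h.1.comp h1
  · have e : (({0}ᶜᶜ : Set E3).domRestrict fun v : E3 => φ ‖v‖) = fun _ => φ 0 := by
      funext v
      have h1 : (v : E3) = 0 := by simpa using v.2
      show φ ‖(v : E3)‖ = φ 0
      rw [h1, norm_zero]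
    rw [e]; exact measurable_const

theorem ms_zero : Ms 0 := measurable_const

theorem measurable_field (hm : Ms φ) (hΛ : MeasurableSet Λ) {X : Type*} [MeasurableSpace X]
    {c : X → Config} {u : X → E3} (hc : Measurable c) (hu : Measurable u) :
    Measurable fun a => field φ Λ (c a) (u a) :=
  measurable_tsum_real (c := fun a => restr Λᶜ (c a)) (g := fun a v => φ ‖u a - v‖)
    (Measurable.restr' hΛ.compl hc) (hm.comp ((hu.comp measurable_fst).sub measurable_snd))

theorem measurable_energy (hm : Ms φ) (n : ℕ) : Measurable fun x : Fin n → E3 => energy φ x :=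
  Finset.measurable_sum _ fun i _ => Finset.measurable_sum _ fun j _ =>
    hm.comp ((measurable_pi_apply i).sub (measurable_pi_apply j))

/-- The set `Λ^n`. -/
def cyl (Λ : Set E3) (n : ℕ) : Set (Fin n → E3) := {x | ∀ i, x i ∈ Λ}

theorem cyl_eq (Λ : Set E3) (n : ℕ) : cyl Λ n = Set.pi univ fun _ => Λ := by
  ext x; simp [cyl]

theorem measurableSet_cyl (hΛ : MeasurableSet Λ) (n : ℕ) : MeasurableSet (cyl Λ n) := by
  rw [cyl_eq]; exact MeasurableSet.univ_pi fun _ => hΛ

/-- The Boltzmann weight. -/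
noncomputable def wt (φ : ℝ → ℝ) (β : ℝ) (Λ : Set E3) (ω : Config) {n : ℕ} (x : Fin n → E3) :
    ℝ≥0∞ :=
  ENNReal.ofReal (Real.exp (-β * (energy φ x + ∑ i, field φ Λ ω (x i))))

/-- The `n`-particle term. -/
noncomputable def term (φ : ℝ → ℝ) (β : ℝ) (Λ : Set E3) (ω : Config) (F : Config → ℝ≥0∞)
    (n : ℕ) : ℝ≥0∞ :=
  (n.factorial : ℝ≥0∞)⁻¹ * ∫⁻ x in cyl Λ n, wt φ β Λ ω x * F (glue Λ x ω)

theorem gibbsSum_eq (ω : Config) (F : Config → ℝ≥0∞) :
    gibbsSum φ β z Λ ω F = ∑' n, ENNReal.ofReal (z ^ n) * term φ β Λ ω F n := rfl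

theorem measurable_wt (hm : Ms φ) (hΛ : MeasurableSet Λ) {X : Type*} [MeasurableSpace X]
    {c : X → Config} {n : ℕ} {x : X → Fin n → E3} (hc : Measurable c) (hx : Measurable x) :
    Measurable fun a => wt φ β Λ (c a) (x a) := by
  refine (Measurable.exp (Measurable.const_mul (((measurable_energy hm n).comp hx).add
    (Finset.measurable_sum _ fun i _ => ?_)) _)).ennreal_ofReal
  exact measurable_field hm hΛ hc ((measurable_pi_apply i).comp hx)

theorem measurable_wtF (hm : Ms φ) (hΛ : MeasurableSet Λ) {F : Config → ℝ≥0∞}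
    (hF : Measurable F) (ω : Config) (n : ℕ) :
    Measurable fun x : Fin n → E3 => wt φ β Λ ω x * F (glue Λ x ω) :=
  (measurable_wt hm hΛ measurable_const measurable_id).mul
    (hF.comp (Measurable.glue' hΛ measurable_id measurable_const))

theorem measurable_gibbsSum (hm : Ms φ) (hΛ : MeasurableSet Λ) {F : Config → ℝ≥0∞}
    (hF : Measurable F) : Measurable fun ω => gibbsSum φ β z Λ ω F := by
  refine Measurable.tsum fun n => Measurable.const_mul (Measurable.const_mul ?_ _) _
  exact Measurable.lintegral_prod_right'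
    (f := fun q : Config × (Fin n → E3) => wt φ β Λ q.1 q.2 * F (glue Λ q.2 q.1))
    ((measurable_wt hm hΛ measurable_fst measurable_snd).mul
      (hF.comp (Measurable.glue' hΛ measurable_snd measurable_fst)))

theorem ae_injective (n : ℕ) : ∀ᵐ x : Fin n → E3, Function.Injective x := by
  have h : ∀ i j : Fin n, ∀ᵐ x : Fin n → E3, x i = x j → i = j := by
    intro i j
    by_cases hij : i = j
    · exact Eventually.of_forall fun _ _ => hij
    · have h1 : volume ((LinearMap.ker (LinearMap.proj (R := ℝ) (φ := fun _ : Fin n => E3) i -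
          LinearMap.proj j) : Submodule ℝ (Fin n → E3)) : Set (Fin n → E3)) = 0 := by
        refine Measure.addHaar_submodule _ _ fun h => ?_
        have h2 : (Pi.single i (EuclideanSpace.single 0 1) : Fin n → E3) ∈
            LinearMap.ker (LinearMap.proj (R := ℝ) (φ := fun _ : Fin n => E3) i -
              LinearMap.proj j) := by rw [h]; trivial
        simp only [LinearMap.mem_ker, LinearMap.sub_apply, LinearMap.proj_apply,
          Pi.single_eq_same, Pi.single_eq_of_ne (Ne.symm hij), sub_zero] at h2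
        have h3 := congrArg (fun v : E3 => v 0) h2
        simp at h3
      filter_upwards [measure_eq_zero_iff_ae_notMem.1 h1] with x hx h
      exact absurd (by simp [h]) hx
  filter_upwards [ae_all_iff.2 fun i => ae_all_iff.2 fun j => h i j] with x hx
  exact fun i j => hx i j

theorem term_le {φ' : ℝ → ℝ} {β' : ℝ} {ω ω' : Config} {F F' : Config → ℝ≥0∞} {n : ℕ}
    {c : ℝ≥0∞} (hΛ : MeasurableSet Λ) (hc : c ≠ ⊤)
    (h : ∀ x ∈ cyl Λ n, Function.Injective x →
      wt φ β Λ ω x * F (glue Λ x ω) ≤ c * (wt φ' β' Λ ω' x * F' (glue Λ x ω'))) :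
    term φ β Λ ω F n ≤ c * term φ' β' Λ ω' F' n := by
  unfold term
  rw [mul_left_comm, ← lintegral_const_mul' _ _ hc]
  gcongr 1
  refine lintegral_mono_ae ?_
  filter_upwards [ae_restrict_mem (measurableSet_cyl hΛ n), ae_restrict_of_ae (ae_injective n)]
    with x h1 h2 using h x h1 h2

theorem gibbsSum_mono {ω : Config} {F F' : Config → ℝ≥0∞} (hΛ : MeasurableSet Λ)
    (h : ∀ n, ∀ x ∈ cyl Λ n, Function.Injective x → F (glue Λ x ω) ≤ F' (glue Λ x ω)) :
    gibbsSum φ β z Λ ω F ≤ gibbsSum φ β z Λ ω F' := by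
  refine ENNReal.tsum_le_tsum fun n => ?_
  have h1 : term φ β Λ ω F n ≤ 1 * term φ β Λ ω F' n :=
    term_le hΛ ENNReal.one_ne_top fun x hx hi => by
      rw [one_mul]; exact mul_le_mul_right (h n x hx hi) _
  rw [one_mul] at h1
  exact mul_le_mul_right h1 _

theorem gibbsSum_congr {ω : Config} {F F' : Config → ℝ≥0∞} (hΛ : MeasurableSet Λ)
    (h : ∀ n, ∀ x ∈ cyl Λ n, Function.Injective x → F (glue Λ x ω) = F' (glue Λ x ω)) :
    gibbsSum φ β z Λ ω F = gibbsSum φ β z Λ ω F' :=
  le_antisymm (gibbsSum_mono hΛ fun n x hx hi => (h n x hx hi).le)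
    (gibbsSum_mono hΛ fun n x hx hi => (h n x hx hi).ge)

/-- The unnormalised Gibbs measure. -/
noncomputable def gm (φ : ℝ → ℝ) (β z : ℝ) (Λ : Set E3) (ω : Config) : Measure Config :=
  Measure.sum fun n : ℕ => (ENNReal.ofReal (z ^ n) * (n.factorial : ℝ≥0∞)⁻¹) •
    (((volume.restrict (cyl Λ n)).withDensity (wt φ β Λ ω)).map fun x => glue Λ x ω)

theorem lintegral_gm (hm : Ms φ) (hΛ : MeasurableSet Λ) {F : Config → ℝ≥0∞}
    (hF : Measurable F) (ω : Config) : ∫⁻ η, F η ∂gm φ β z Λ ω = gibbsSum φ β z Λ ω F := by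
  rw [gm, lintegral_sum_measure, gibbsSum_eq]
  refine tsum_congr fun n => ?_
  have h1 : Measurable fun x : Fin n → E3 => glue Λ x ω :=
    Measurable.glue' hΛ measurable_id measurable_const
  have h2 : Measurable (wt φ β Λ ω : (Fin n → E3) → ℝ≥0∞) :=
    measurable_wt hm hΛ measurable_const measurable_id
  have h3 : Measurable fun x : Fin n → E3 => F (glue Λ x ω) := hF.comp h1
  rw [lintegral_smul_measure, lintegral_map hF h1, lintegral_withDensity_eq_lintegral_mul _
    h2 h3, smul_eq_mul, mul_assoc]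
  rfl

theorem gm_apply (hm : Ms φ) (hΛ : MeasurableSet Λ) {A : Set Config} (hA : MeasurableSet A)
    (ω : Config) : gm φ β z Λ ω A = gibbsSum φ β z Λ ω (A.indicator 1) := by
  rw [← lintegral_gm hm hΛ (measurable_one.indicator hA), lintegral_indicator_one hA]

theorem gm_univ (hm : Ms φ) (hΛ : MeasurableSet Λ) (ω : Config) :
    gm φ β z Λ ω univ = gibbsSum φ β z Λ ω 1 := by
  rw [gm_apply hm hΛ MeasurableSet.univ, indicator_univ]

theorem gibbsSum_const_mul (hm : Ms φ) (hΛ : MeasurableSet Λ) {F : Config → ℝ≥0∞}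
    (hF : Measurable F) (ω : Config) (c : ℝ≥0∞) :
    gibbsSum φ β z Λ ω (fun η => c * F η) = c * gibbsSum φ β z Λ ω F := by
  rw [← lintegral_gm hm hΛ (hF.const_mul c), ← lintegral_gm hm hΛ hF, lintegral_const_mul c hF]

theorem gibbsSum_add (hm : Ms φ) (hΛ : MeasurableSet Λ) {F F' : Config → ℝ≥0∞}
    (hF : Measurable F) (hF' : Measurable F') (ω : Config) :
    gibbsSum φ β z Λ ω (fun η => F η + F' η) = gibbsSum φ β z Λ ω F + gibbsSum φ β z Λ ω F' := by
  have h : Measurable fun η => F η + F' η := hF.add hF'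
  rw [← lintegral_gm hm hΛ h, ← lintegral_gm hm hΛ hF, ← lintegral_gm hm hΛ hF',
    lintegral_add_left hF]

theorem volume_fin_zero : (volume : Measure (Fin 0 → E3)) univ = 1 := by
  rw [volume_pi, Measure.pi_univ]; simp

theorem term_zero (ω : Config) : term φ β Λ ω 1 0 = 1 := by
  have e : cyl Λ 0 = univ := by ext x; simp [cyl]
  simp [term, e, wt, energy, volume_fin_zero]

theorem one_le_gibbsSum (ω : Config) : 1 ≤ gibbsSum φ β z Λ ω 1 := by
  refine le_trans ?_ (ENNReal.le_tsum 0)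
  show 1 ≤ ENNReal.ofReal (z ^ 0) * term φ β Λ ω 1 0
  rw [term_zero]; simp

theorem gibbsSum_ne_zero (ω : Config) : gibbsSum φ β z Λ ω 1 ≠ 0 :=
  (zero_lt_one.trans_le (one_le_gibbsSum ω)).ne'

theorem gibbsSum_out {ω ω' : Config} (h : ω.pts \ Λ = ω'.pts \ Λ) (F : Config → ℝ≥0∞) :
    gibbsSum φ β z Λ ω F = gibbsSum φ β z Λ ω' F := by
  have h1 : field φ Λ ω = field φ Λ ω' := by funext x; unfold field; rw [h]
  have h2 : ∀ n (x : Fin n → E3), glue Λ x ω = glue Λ x ω' := fun n x =>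
    Config.ext' (by show range x ∪ _ = range x ∪ _; rw [h])
  simp only [gibbsSum, h1, h2]

theorem glue_diff {n : ℕ} {x : Fin n → E3} (hx : x ∈ cyl Λ n) (ω : Config) :
    (glue Λ x ω).pts \ Λ = ω.pts \ Λ := by
  ext y
  constructor
  · rintro ⟨⟨i, rfl⟩ | h, hy⟩
    exacts [absurd (hx i) hy, h]
  · exact fun h => ⟨Or.inr h, h.2⟩

/-- The number of points in `Λ`. -/
noncomputable def NL (Λ : Set E3) (ω : Config) : ℕ := (ω.pts ∩ Λ).ncard

theorem NL_glue {n : ℕ} {x : Fin n → E3} (hx : x ∈ cyl Λ n) (hi : Function.Injective x)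
    (ω : Config) : NL Λ (glue Λ x ω) = n := by
  have e : (glue Λ x ω).pts ∩ Λ = range x := by
    ext y
    constructor
    · rintro ⟨h | h, hy⟩
      exacts [h, absurd hy h.2]
    · rintro ⟨i, rfl⟩
      exact ⟨Or.inl ⟨i, rfl⟩, hx i⟩
  rw [NL, e, Set.ncard_range_of_injective hi]; simp

theorem gibbsSum_count (hΛ : MeasurableSet Λ) (ω : Config) (F : Config → ℝ≥0∞)
    {g : ℕ → ℝ≥0∞} (hg : ∀ n, g n ≠ ⊤) :
    gibbsSum φ β z Λ ω (fun η => g (NL Λ η) * F η) =
      ∑' n, g n * (ENNReal.ofReal (z ^ n) * term φ β Λ ω F n) := by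
  rw [gibbsSum_eq]
  refine tsum_congr fun n => ?_
  rw [mul_left_comm]
  congr 1
  unfold term
  rw [mul_left_comm, ← lintegral_const_mul' _ _ (hg n)]
  congr 1
  refine lintegral_congr_ae ?_
  filter_upwards [ae_restrict_mem (measurableSet_cyl hΛ n), ae_restrict_of_ae (ae_injective n)]
    with x h1 h2
  rw [NL_glue h1 h2, mul_left_comm]

theorem gibbsSum_mul_z (hΛ : MeasurableSet Λ) (ω : Config) (F : Config → ℝ≥0∞) {c : ℝ}
    (hc : 0 ≤ c) : gibbsSum φ β (c * z) Λ ω F =
      gibbsSum φ β z Λ ω fun η => ENNReal.ofReal (c ^ NL Λ η) * F η := by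
  rw [gibbsSum_count hΛ ω F (g := fun n => ENNReal.ofReal (c ^ n))
    fun _ => ENNReal.ofReal_ne_top, gibbsSum_eq]
  refine tsum_congr fun n => ?_
  rw [mul_pow, ENNReal.ofReal_mul (pow_nonneg hc n), mul_assoc]

/-! ### Insertion operators -/

/-- Measurable functions. -/
def MF : Submodule ℝ≥0∞ (Config → ℝ≥0∞) where
  carrier := {F | Measurable F}
  add_mem' h h' := Measurable.add h h'
  zero_mem' := measurable_zero
  smul_mem' c _ h := Measurable.const_mul h c

section
variable {w : E3 → Config → ℝ≥0∞} (hw : Measurable fun q : E3 × Config => w q.1 q.2)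
include hw

theorem measurable_ins_int (F : MF) :
    Measurable fun q : Config × E3 => w q.2 q.1 * F.1 (ins q.2 q.1) :=
  (hw.comp measurable_swap).mul (Measurable.comp F.2 (Measurable.ins' measurable_snd measurable_fst))

theorem measurable_ins_int' (F : MF) (η : Config) :
    Measurable fun x => w x η * F.1 (ins x η) :=
  (measurable_ins_int hw F).comp (measurable_const.prodMk measurable_id)

/-- Insertion of one particle in `A` with weight `w`. -/
noncomputable def Gop (A : Set E3) : Module.End ℝ≥0∞ MF where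
  toFun F := ⟨fun η => ∫⁻ x in A, w x η * F.1 (ins x η),
    Measurable.lintegral_prod_right' (measurable_ins_int hw F)⟩
  map_add' F F' := Subtype.ext (funext fun η => by
    show ∫⁻ x in A, w x η * (F.1 (ins x η) + F'.1 (ins x η)) = _ + _
    simp only [mul_add]
    exact lintegral_add_left (measurable_ins_int' hw F η) _)
  map_smul' c F := Subtype.ext (funext fun η => by
    show ∫⁻ x in A, w x η * (c * F.1 (ins x η)) = c * _
    rw [← lintegral_const_mul c (measurable_ins_int' hw F η)]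
    simp only [mul_left_comm])

theorem Gop_union {A B : Set E3} (hB : MeasurableSet B) (h : Disjoint A B) :
    Gop hw (A ∪ B) = Gop hw A + Gop hw B :=
  LinearMap.ext fun _ => Subtype.ext (funext fun _ => lintegral_union hB h)

omit hw in
theorem ae_notMem (η : Config) : ∀ᵐ x : E3, x ∉ η.pts := by
  refine measure_eq_zero_iff_ae_notMem.1 (Set.Countable.measure_zero ?_ _)
  refine (Set.countable_range fun k => dec (sec η k)).mono fun v hv => ?_
  obtain ⟨k, -, e⟩ := (mem_iff_sec η v).1 hv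
  exact ⟨k, e⟩

theorem Gop_comm (hc : ∀ η x y, x ∉ η.pts → y ∉ η.pts →
    w x η * w y (ins x η) = w y η * w x (ins y η)) (A B : Set E3) :
    Commute (Gop hw A) (Gop hw B) := by
  refine LinearMap.ext fun F => Subtype.ext (funext fun η => ?_)
  show ∫⁻ x in A, w x η * ∫⁻ y in B, w y (ins x η) * F.1 (ins y (ins x η)) =
    ∫⁻ y in B, w y η * ∫⁻ x in A, w x (ins y η) * F.1 (ins x (ins y η))
  simp only [← lintegral_const_mul _ (measurable_ins_int' hw F _)]
  rw [lintegral_lintegral_swap]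
  · refine lintegral_congr_ae ?_
    filter_upwards [ae_restrict_of_ae (ae_notMem η)] with y hy
    refine lintegral_congr_ae ?_
    filter_upwards [ae_restrict_of_ae (ae_notMem η)] with x hx
    have e : ins y (ins x η) = ins x (ins y η) := Config.ext' (Set.insert_comm _ _ _)
    rw [← mul_assoc, ← mul_assoc, hc η x y hx hy, e]
  · refine Measurable.aemeasurable ?_
    exact (hw.comp (measurable_fst.prodMk measurable_const)).mul
      ((measurable_ins_int hw F).comp
        ((Measurable.ins' measurable_fst measurable_const).prodMk measurable_snd))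

/-- Countable sums of measurable functions. -/
noncomputable def tsumMF (H : ℕ → MF) : MF :=
  ⟨fun η => ∑' k, (H k).1 η, Measurable.tsum fun k => (H k).2⟩

theorem Gop_pow_tsum (A : Set E3) (m : ℕ) (H : ℕ → MF) :
    (Gop hw A ^ m) (tsumMF H) = tsumMF fun k => (Gop hw A ^ m) (H k) := by
  induction m with
  | zero => rfl
  | succ m ih =>
    simp only [pow_succ', Module.End.mul_apply, ih]
    refine Subtype.ext (funext fun η => ?_)
    show ∫⁻ x in A, w x η * ∑' k, _ = ∑' k, ∫⁻ x in A, _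
    rw [← lintegral_tsum fun k => (measurable_ins_int' hw _ η).aemeasurable]
    simp only [ENNReal.tsum_mul_left]

/-- The exponential of the insertion operator. -/
noncomputable def ExM (A : Set E3) (F : MF) : MF :=
  tsumMF fun n => (n.factorial : ℝ≥0∞)⁻¹ • (Gop hw A ^ n) F

theorem ExM_union (hc : ∀ η x y, x ∉ η.pts → y ∉ η.pts →
    w x η * w y (ins x η) = w y η * w x (ins y η)) {A B : Set E3} (hB : MeasurableSet B)
    (h : Disjoint A B) (F : MF) : ExM hw (A ∪ B) F = ExM hw A (ExM hw B F) := by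
  refine Subtype.ext (funext fun η => ?_)
  let f : ℕ × ℕ → ℝ≥0∞ := fun p => (p.1.factorial : ℝ≥0∞)⁻¹ * ((p.2.factorial : ℝ≥0∞)⁻¹ *
    ((Gop hw A ^ p.1) ((Gop hw B ^ p.2) F)).1 η)
  have e1 : (ExM hw A (ExM hw B F)).1 η = ∑' p, f p := by
    rw [ENNReal.tsum_prod']
    refine tsum_congr fun m => ?_
    show (m.factorial : ℝ≥0∞)⁻¹ * ((Gop hw A ^ m) (tsumMF _)).1 η = _
    rw [Gop_pow_tsum]
    show _ * ∑' k, _ = _
    rw [← ENNReal.tsum_mul_left]
    refine tsum_congr fun k => ?_
    simp only [map_smul]; rfl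
  rw [e1, ← Finset.HasAntidiagonal.sigmaAntidiagonalEquivProd.tsum_eq f, ENNReal.tsum_sigma']
  refine tsum_congr fun n => ?_
  show (n.factorial : ℝ≥0∞)⁻¹ * ((Gop hw (A ∪ B) ^ n) F).1 η = _
  rw [Gop_union hw hB h, (Gop_comm hw hc A B).add_pow', LinearMap.sum_apply,
    Submodule.coe_sum, Finset.sum_apply, Finset.mul_sum, tsum_fintype,
    ← Finset.sum_coe_sort (Finset.antidiagonal n)]
  refine Finset.sum_congr rfl fun p _ => ?_
  obtain ⟨⟨i, j⟩, hp⟩ := p
  obtain rfl : i + j = n := Finset.mem_antidiagonal.1 hp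
  show _ * (((i + j).choose i) • ((Gop hw A ^ i) ((Gop hw B ^ j) F)).1 η) = f (i, j)
  rw [nsmul_eq_mul, ← mul_assoc]
  show _ = _ * (_ * _)
  rw [← mul_assoc]
  congr 1
  have h1 : (((i + j).factorial : ℕ) : ℝ≥0∞) =
      ((i + j).choose i : ℕ) * (i.factorial * j.factorial) := by
    rw [← Nat.add_choose_mul_factorial_mul_factorial, Nat.choose_symm_add]; push_cast; ring
  have h2 : (((i + j).choose i : ℕ) : ℝ≥0∞) ≠ 0 := by
    exact_mod_cast (Nat.choose_pos (Nat.le_add_right i j)).ne'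
  have h3 : (i.factorial : ℝ≥0∞) ≠ 0 := by exact_mod_cast i.factorial_ne_zero
  rw [h1, ENNReal.mul_inv (Or.inl h2) (Or.inl (ENNReal.natCast_ne_top _)),
    ENNReal.mul_inv (Or.inl h3) (Or.inl (ENNReal.natCast_ne_top _)), mul_right_comm,
    ENNReal.inv_mul_cancel h2 (ENNReal.natCast_ne_top _), one_mul]

end

theorem field_finite {η : Config} (h : (η.pts \ Λ).Finite) (x : E3) :
    field φ Λ η x = ∑ y ∈ h.toFinset, φ ‖x - y‖ := by
  rw [← Finset.tsum_subtype', h.coe_toFinset]; rfl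

theorem field_ins {η : Config} (h : η.pts.Finite) {x₀ : E3} (hx : x₀ ∉ η.pts) (y : E3) :
    field φ ∅ (ins x₀ η) y = φ ‖y - x₀‖ + field φ ∅ η y := by
  classical
  have h1 : (η.pts \ ∅).Finite := h.sdiff
  have h2 : ((ins x₀ η).pts \ ∅).Finite := (h.insert x₀).sdiff
  have e : h2.toFinset = insert x₀ h1.toFinset := by
    ext v; simp [ins]
  rw [field_finite h1, field_finite h2, e, Finset.sum_insert (by simpa using hx)]

open Classical in
/-- The weight of a new particle. -/
noncomputable def ww (φ : ℝ → ℝ) (β z : ℝ) (x : E3) (η : Config) : ℝ≥0∞ :=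
  ENNReal.ofReal z *
    ENNReal.ofReal (Real.exp (-β * if η.pts.Finite then field φ ∅ η x else 0))

theorem measurableSet_finite : MeasurableSet {η : Config | η.pts.Finite} := by
  have h := measurable_tsum_enn (c := fun η : Config => η) (g := fun _ _ => 1) measurable_id
    measurable_const
  have e : {η : Config | η.pts.Finite} =
      (fun η : Config => ∑' _ : η.pts, (1 : ℝ≥0∞)) ⁻¹' {⊤}ᶜ := by
    ext η
    simp [Set.encard_eq_top_iff]
  rw [e]
  exact h (measurableSet_singleton _).compl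

theorem measurable_ww (hm : Ms φ) : Measurable fun q : E3 × Config => ww φ β z q.1 q.2 := by
  refine Measurable.const_mul (Measurable.ennreal_ofReal (Measurable.exp
    (Measurable.const_mul ?_ _))) _
  exact Measurable.ite (measurable_snd measurableSet_finite)
    (measurable_field hm MeasurableSet.empty measurable_snd measurable_fst) measurable_const

theorem ww_cocycle (η : Config) (x y : E3) (hx : x ∉ η.pts) (hy : y ∉ η.pts) :
    ww φ β z x η * ww φ β z y (ins x η) = ww φ β z y η * ww φ β z x (ins y η) := by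
  unfold ww
  by_cases h : η.pts.Finite
  · have h1 : ∀ v, (ins v η).pts.Finite := fun v => h.insert v
    simp only [if_pos h, if_pos (h1 _), field_ins h hx, field_ins h hy]
    rw [mul_mul_mul_comm, mul_mul_mul_comm _ (ENNReal.ofReal (Real.exp _)),
      ← ENNReal.ofReal_mul (Real.exp_pos _).le, ← ENNReal.ofReal_mul (Real.exp_pos _).le,
      ← Real.exp_add, ← Real.exp_add, norm_sub_rev y x]
    congr 3
    ring
  · have h1 : ∀ v, ¬ (ins v η).pts.Finite := fun v h' => h (h'.subset (subset_insert _ _))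
    simp only [if_neg h, if_neg (h1 _)]

theorem lintegral_cyl_succ {A : Set E3} {n : ℕ} {H : (Fin (n + 1) → E3) → ℝ≥0∞}
    (hH : Measurable H) :
    ∫⁻ x in cyl A (n + 1), H x = ∫⁻ x₀ in A, ∫⁻ x in cyl A n, H (Fin.cons x₀ x) := by
  have h := (volume_preserving_piFinSuccAbove (fun _ : Fin (n + 1) => E3) 0).symm
  have e : ∀ q : E3 × (Fin n → E3),
      (MeasurableEquiv.piFinSuccAbove (fun _ : Fin (n + 1) => E3) 0).symm q =
        Fin.cons q.1 q.2 := fun q => by
    exact Fin.insertNth_zero' q.1 q.2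
  rw [← h.setLIntegral_comp_preimage_emb (MeasurableEquiv.measurableEmbedding _)]
  have e2 : (MeasurableEquiv.piFinSuccAbove (fun _ : Fin (n + 1) => E3) 0).symm ⁻¹'
      cyl A (n + 1) = A ×ˢ cyl A n := by
    ext q
    rw [mem_preimage, e]
    simp [cyl, Fin.forall_fin_succ]
  have h3 : Measurable fun q : E3 × (Fin n → E3) =>
      H ((MeasurableEquiv.piFinSuccAbove (fun _ : Fin (n + 1) => E3) 0).symm q) :=
    hH.comp (MeasurableEquiv.measurable _)
  rw [e2, Measure.volume_eq_prod, setLIntegral_prod _ h3.aemeasurable]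
  simp only [e]

theorem energy_cons {n : ℕ} (x₀ : E3) (x : Fin n → E3) :
    energy φ (Fin.cons x₀ x : Fin (n + 1) → E3) = ∑ i, φ ‖x₀ - x i‖ + energy φ x := by
  unfold energy
  rw [Fin.sum_univ_succ, Fin.Ioi_zero_eq_map, Finset.sum_map]
  congr 1
  refine Finset.sum_congr rfl fun i _ => ?_
  rw [Fin.Ioi_succ, Finset.sum_map]
  rfl

theorem Gop_pow_eq (hm : Ms φ) (hz : 0 ≤ z) (A : Set E3) (F : MF) (n : ℕ) {η : Config}
    (h : η.pts.Finite) : ((Gop (measurable_ww (β := β) (z := z) hm) A ^ n) F).1 η =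
      ENNReal.ofReal (z ^ n) * ∫⁻ x in cyl A n, wt φ β ∅ η x * F.1 (glue ∅ x η) := by
  induction n generalizing η with
  | zero =>
    have e : cyl A 0 = univ := by ext x; simp [cyl]
    have e2 : ∀ x : Fin 0 → E3, glue ∅ x η = η := fun x => Config.ext' (by simp [glue])
    simp [e, e2, wt, energy, volume_fin_zero]
  | succ n ih =>
    rw [pow_succ', Module.End.mul_apply,
      lintegral_cyl_succ (measurable_wtF hm MeasurableSet.empty F.2 η _),
      ← lintegral_const_mul' _ _ ENNReal.ofReal_ne_top]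
    show ∫⁻ x in A, _ = _
    refine lintegral_congr_ae ?_
    filter_upwards [ae_restrict_of_ae (ae_notMem η)] with x₀ hx
    rw [ih (η := ins x₀ η) (h.insert x₀), ww, if_pos h, pow_succ', ENNReal.ofReal_mul hz,
      mul_mul_mul_comm, ← lintegral_const_mul' _ _ ENNReal.ofReal_ne_top]
    congr 1
    refine lintegral_congr fun x => ?_
    have e : glue ∅ x (ins x₀ η) = glue ∅ (Fin.cons x₀ x : Fin (n + 1) → E3) η := by
      refine Config.ext' ?_
      show range x ∪ (insert x₀ η.pts \ ∅) = range _ ∪ (η.pts \ ∅)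
      rw [Fin.range_cons, sdiff_empty, sdiff_empty, insert_union, union_insert]
    rw [e, ← mul_assoc, wt, wt, ← ENNReal.ofReal_mul (Real.exp_pos _).le, ← Real.exp_add,
      energy_cons, Fin.sum_univ_succ]
    simp only [field_ins h hx, Finset.sum_add_distrib, Fin.cons_zero, Fin.cons_succ,
      norm_sub_rev _ x₀]
    congr 3
    ring

theorem ExM_eq (hm : Ms φ) (hz : 0 ≤ z) (F : MF) {η : Config} (h : η.pts.Finite)
    (hd : Disjoint η.pts Λ) :
    (ExM (measurable_ww (β := β) (z := z) hm) Λ F).1 η = gibbsSum φ β z Λ η F.1 := by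
  refine tsum_congr fun n => ?_
  show (n.factorial : ℝ≥0∞)⁻¹ * _ = _
  rw [Gop_pow_eq hm hz Λ F n h, mul_left_comm]
  have e : η.pts \ ∅ = η.pts \ Λ := by rw [sdiff_empty, hd.sdiff_eq_left]
  have h1 : field φ ∅ η = field φ Λ η := by funext x; unfold field; rw [e]
  have h2 : ∀ x : Fin n → E3, glue ∅ x η = glue Λ x η := fun x =>
    Config.ext' (by show range x ∪ _ = range x ∪ _; rw [e])
  simp only [wt, h1, h2]
  rfl

theorem glue_emp {n : ℕ} (x : Fin n → E3) : (glue Λ x emp).pts = range x := by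
  simp [glue, emp]

/-- Factorisation of the free grand canonical sum over two disjoint regions. -/
theorem gibbsSum_union (hm : Ms φ) (hz : 0 ≤ z) {A B : Set E3} (hA : MeasurableSet A)
    (hB : MeasurableSet B) (h : Disjoint A B) {F : Config → ℝ≥0∞} (hF : Measurable F) :
    gibbsSum φ β z (A ∪ B) emp F = gibbsSum φ β z A emp fun η => gibbsSum φ β z B η F := by
  have h0 : emp.pts.Finite := finite_empty
  rw [← ExM_eq hm hz ⟨F, hF⟩ h0 (empty_disjoint _), ExM_union _ ww_cocycle hB h,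
    ExM_eq hm hz _ h0 (empty_disjoint _)]
  refine gibbsSum_congr hA fun n x hx _ => ExM_eq hm hz _ ?_ ?_
  · rw [glue_emp]; exact finite_range x
  · rw [glue_emp]
    exact h.mono_left (by rintro _ ⟨i, rfl⟩; exact hx i)

/-! ### Stability -/

/-- Measurability and stability with constant `B ≥ 0`. -/
structure Good (φ : ℝ → ℝ) (B : ℝ) : Prop where
  ms : Ms φ
  nonneg : 0 ≤ B
  stab : ∀ (N : ℕ) (x : Fin N → E3), Function.Injective x → -(B * N) ≤ energy φ x

theorem exists_good (h1 : IsPotential φ) (h2 : Stable φ) : ∃ B, Good φ B := by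
  obtain ⟨B, hB⟩ := h2
  refine ⟨max B 0, ms_of_isPotential h1, le_max_right _ _, fun N x hx => le_trans ?_ (hB N x hx)⟩
  exact neg_le_neg (mul_le_mul_of_nonneg_right (le_max_left _ _) (Nat.cast_nonneg N))

variable {B : ℝ}

theorem Good.low (h : Good φ B) {v : E3} (hv : v ≠ 0) : -(2 * B) ≤ φ ‖v‖ := by
  have h1 := h.stab 2 ![v, 0] (by
    intro i j hij
    fin_cases i <;> fin_cases j <;> simp_all)
  have e : energy φ (![v, 0] : Fin 2 → E3) = φ ‖v‖ := by
    show energy φ (Fin.cons v ![0] : Fin 2 → E3) = _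
    rw [energy_cons]
    simp [energy]
  rw [e] at h1
  push_cast at h1
  linarith

theorem gibbsSum_le_of_wt {φ' : ℝ → ℝ} {β' z' c : ℝ} {ω ω' : Config} {F F' : Config → ℝ≥0∞}
    (hΛ : MeasurableSet Λ) (hz : 0 ≤ z) (hc : 0 ≤ c) (hz' : z * c ≤ z')
    (h : ∀ n, ∀ x ∈ cyl Λ n, Function.Injective x → wt φ β Λ ω x * F (glue Λ x ω) ≤
      ENNReal.ofReal (c ^ n) * (wt φ' β' Λ ω' x * F' (glue Λ x ω'))) :
    gibbsSum φ β z Λ ω F ≤ gibbsSum φ' β' z' Λ ω' F' := by
  rw [gibbsSum_eq, gibbsSum_eq]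
  refine ENNReal.tsum_le_tsum fun n => ?_
  refine (mul_le_mul_right (term_le hΛ ENNReal.ofReal_ne_top (h n)) _).trans ?_
  rw [← mul_assoc, ← ENNReal.ofReal_mul (pow_nonneg hz n), ← mul_pow]
  gcongr

theorem wt_zero {ω : Config} {n : ℕ} (x : Fin n → E3) : wt 0 β Λ ω x = 1 := by
  simp [wt, energy, field]

theorem gibbsSum_le_poisson (h : Good φ B) (hβ : 0 ≤ β) (hz : 0 ≤ z) (hΛ : MeasurableSet Λ)
    {η : Config} (hη : (η.pts \ Λ).Finite) {ζ : ℝ}
    (hζ : z * Real.exp (β * (B + 2 * B * (η.pts \ Λ).ncard)) ≤ ζ) (F : Config → ℝ≥0∞) :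
    gibbsSum φ β z Λ η F ≤ gibbsSum 0 1 ζ Λ η F := by
  refine gibbsSum_le_of_wt hΛ hz (Real.exp_pos _).le hζ fun n x hx hi => ?_
  rw [wt_zero, one_mul]
  refine mul_le_mul_left (ENNReal.ofReal_le_ofReal ?_) _
  rw [← Real.exp_nat_mul, Real.exp_le_exp]
  have h1 : ∀ i, -(2 * B * (η.pts \ Λ).ncard) ≤ field φ Λ η (x i) := fun i => by
    rw [field_finite hη, Set.ncard_eq_toFinset_card _ hη]
    have h2 := Finset.card_nsmul_le_sum hη.toFinset (fun y => φ ‖x i - y‖) (-(2 * B))
      fun y hy => h.low (sub_ne_zero.2 fun e => (hη.mem_toFinset.1 hy).2 (e ▸ hx i))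
    rw [nsmul_eq_mul] at h2
    linarith
  have h2 := Finset.card_nsmul_le_sum Finset.univ (fun i => field φ Λ η (x i)) _ fun i _ => h1 i
  rw [nsmul_eq_mul, Finset.card_univ, Fintype.card_fin] at h2
  have h3 := h.stab n x hi
  nlinarith [mul_le_mul_of_nonneg_left (add_le_add h3 h2) hβ]

theorem poisson_one {ζ : ℝ} (hζ : 0 ≤ ζ) (hV : volume Λ ≠ ⊤) (η : Config) :
    gibbsSum 0 1 ζ Λ η 1 = ENNReal.ofReal (Real.exp (ζ * (volume Λ).toReal)) := by
  rw [Real.exp_eq_exp_ℝ, NormedSpace.exp_eq_tsum_div, gibbsSum_eq,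
    ENNReal.ofReal_tsum_of_nonneg (fun n => by positivity) (Real.summable_pow_div_factorial _)]
  refine tsum_congr fun n => ?_
  simp only [term, wt_zero, Pi.one_apply, mul_one, setLIntegral_one]
  rw [cyl_eq, volume_pi_pi, Finset.prod_const, Finset.card_univ, Fintype.card_fin,
    ENNReal.ofReal_div_of_pos (by positivity), mul_pow, ENNReal.ofReal_mul (by positivity),
    ENNReal.ofReal_pow ENNReal.toReal_nonneg, ENNReal.ofReal_toReal hV, ENNReal.ofReal_natCast,
    ENNReal.div_eq_inv_mul, mul_left_comm]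

theorem gibbsSum_ne_top (h : Good φ B) (hβ : 0 ≤ β) (hz : 0 ≤ z) (hΛ : MeasurableSet Λ)
    (hV : volume Λ ≠ ⊤) {η : Config} (hη : (η.pts \ Λ).Finite) : gibbsSum φ β z Λ η 1 ≠ ⊤ := by
  refine ne_top_of_le_ne_top ?_ (gibbsSum_le_poisson h hβ hz hΛ hη le_rfl 1)
  rw [poisson_one (by positivity) hV]
  exact ENNReal.ofReal_ne_top

/-- The DLR equations for the free measure in a region `Q ⊇ Λ`. -/
theorem finite_dlr (h : Good φ B) (hβ : 0 ≤ β) (hz : 0 ≤ z) {Q : Set E3} (hQ : MeasurableSet Q)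
    (hΛ : MeasurableSet Λ) (hV : volume Λ ≠ ⊤) (hs : Λ ⊆ Q) {F : Config → ℝ≥0∞}
    (hF : Measurable F) :
    gibbsSum φ β z Q emp (fun ω => gibbsSum φ β z Λ ω F / gibbsSum φ β z Λ ω 1) =
      gibbsSum φ β z Q emp F := by
  have hG : Measurable fun ω => gibbsSum φ β z Λ ω F / gibbsSum φ β z Λ ω 1 :=
    (measurable_gibbsSum h.ms hΛ hF).div (measurable_gibbsSum h.ms hΛ measurable_one)
  rw [← sdiff_union_of_subset hs, gibbsSum_union h.ms hz (hQ.diff hΛ) hΛ disjoint_sdiff_left hG,
    gibbsSum_union h.ms hz (hQ.diff hΛ) hΛ disjoint_sdiff_left hF]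
  refine gibbsSum_congr (hQ.diff hΛ) fun n x _ _ => ?_
  have hη : ((glue (Q \ Λ) x emp).pts \ Λ).Finite := by
    rw [glue_emp]; exact (finite_range x).sdiff
  generalize glue (Q \ Λ) x emp = η at hη
  rw [gibbsSum_congr (F' := fun η' => (gibbsSum φ β z Λ η F / gibbsSum φ β z Λ η 1) *
      (1 : Config → ℝ≥0∞) η') hΛ fun n y hy _ => by
    simp only [gibbsSum_out (glue_diff hy η), Pi.one_apply, mul_one],
    gibbsSum_const_mul h.ms hΛ measurable_one,
    ENNReal.div_mul_cancel (gibbsSum_ne_zero _) (gibbsSum_ne_top h hβ hz hΛ hV hη)]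

/-! ### The ideal gas -/

theorem field_emp (x : E3) : field φ Λ emp x = 0 := by
  have h : (emp.pts \ Λ).Finite := finite_empty.sdiff
  rw [field_finite h]
  refine Finset.sum_eq_zero fun y hy => absurd (h.mem_toFinset.1 hy).1 (notMem_empty y)

theorem gibbsSum_emp_mono {A A' : Set E3} (h : A ⊆ A') (F : Config → ℝ≥0∞) :
    gibbsSum φ β z A emp F ≤ gibbsSum φ β z A' emp F := by
  rw [gibbsSum_eq, gibbsSum_eq]
  refine ENNReal.tsum_le_tsum fun n => mul_le_mul_right (mul_le_mul_right ?_ _) _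
  have e : ∀ x : Fin n → E3, glue A x emp = glue A' x emp := fun x =>
    Config.ext' (by rw [glue_emp, glue_emp])
  simp only [wt, field_emp, e]
  exact lintegral_mono_set fun x hx i => h (hx i)

theorem poisson_congr {ζ : ℝ} (hΛ : MeasurableSet Λ) {ω ω' : Config} {F F' : Config → ℝ≥0∞}
    (h : ∀ n, ∀ x ∈ cyl Λ n, F (glue Λ x ω) = F' (glue Λ x ω')) :
    gibbsSum 0 1 ζ Λ ω F = gibbsSum 0 1 ζ Λ ω' F' := by
  rw [gibbsSum_eq, gibbsSum_eq]
  refine tsum_congr fun n => ?_
  simp only [term, wt_zero]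
  rw [setLIntegral_congr_fun (measurableSet_cyl hΛ n) fun x hx => by rw [h n x hx]]

theorem poisson_mul {ζ : ℝ} (hζ : 0 ≤ ζ) {A A' B' : Set E3} (hA' : MeasurableSet A')
    (hB' : MeasurableSet B') (h1 : A' ⊆ A) (h2 : Disjoint B' A) {F H : Config → ℝ≥0∞}
    (hF : Measurable F) (hH : Measurable H) (hFl : ∀ ω, F (restr A ω) = F ω)
    (hHl : ∀ ω, H (restr Aᶜ ω) = H ω) :
    gibbsSum 0 1 ζ (A' ∪ B') emp (fun ω => F ω * H ω) =
      gibbsSum 0 1 ζ A' emp F * gibbsSum 0 1 ζ B' emp H := by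
  have hFH : Measurable fun ω => F ω * H ω := hF.mul hH
  rw [gibbsSum_union ms_zero hζ hA' hB' (h2.symm.mono_left h1) hFH, mul_comm,
    ← gibbsSum_const_mul ms_zero hA' hF]
  refine gibbsSum_congr hA' fun n x hx _ => ?_
  rw [mul_comm, ← gibbsSum_const_mul ms_zero hB' hH]
  refine poisson_congr hB' fun k y hy => ?_
  have hxA : ∀ v ∈ (glue A' x emp).pts, v ∈ A := by
    rw [glue_emp]; rintro _ ⟨i, rfl⟩; exact h1 (hx i)
  have hyA : ∀ i, y i ∉ A := fun i => disjoint_left.1 h2 (hy i)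
  generalize glue A' x emp = η at hxA
  congr 1
  · rw [← hFl, ← hFl η]
    congr 1
    refine Config.ext' (Set.ext fun v => ⟨?_, fun hv => ⟨Or.inr ⟨hv.1, fun h => ?_⟩, hv.2⟩⟩)
    · rintro ⟨⟨i, rfl⟩ | h, hv⟩
      exacts [absurd hv (hyA i), ⟨h.1, hv⟩]
    · exact disjoint_left.1 h2 h hv.2
  · rw [← hHl, ← hHl (glue B' y emp)]
    congr 1
    refine Config.ext' (Set.ext fun v => ⟨?_, ?_⟩)
    · rintro ⟨h | h, hv⟩
      exacts [⟨Or.inl h, hv⟩, absurd (hxA v h.1) hv]
    · rintro ⟨h | h, hv⟩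
      exacts [⟨Or.inl h, hv⟩, absurd h.1 (notMem_empty v)]

theorem poisson_blocks {ζ : ℝ} (hζ : 0 ≤ ζ) {ι : Type*} (A : ι → Set E3)
    (hA : ∀ b, MeasurableSet (A b)) (hd : Pairwise fun b c => Disjoint (A b) (A c))
    (F : ι → Config → ℝ≥0∞) (hF : ∀ b, Measurable (F b)) (hl : ∀ b ω, F b (restr (A b) ω) = F b ω)
    (T : Finset ι) {Q : Set E3} (hQ : MeasurableSet Q) :
    gibbsSum 0 1 ζ Q emp (fun ω => ∏ b ∈ T, F b ω) ≤
      (∏ b ∈ T, gibbsSum 0 1 ζ (A b) emp (F b)) * gibbsSum 0 1 ζ Q emp 1 := by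
  classical
  induction T using Finset.induction_on generalizing Q with
  | empty => simp only [Finset.prod_empty, one_mul]; exact le_rfl
  | insert a T ha ih =>
    simp only [Finset.prod_insert ha]
    have e := poisson_mul hζ (A := A a) (hQ.inter (hA a)) (hQ.diff (hA a)) inter_subset_right
      disjoint_sdiff_left (hF a) (Finset.measurable_prod T fun b _ => hF b) (hl a) fun ω =>
        Finset.prod_congr rfl fun b hb => by
          rw [← hl b, restr_restr (subset_compl_iff_disjoint_right.2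
            (hd (show b ≠ a from fun h => ha (h ▸ hb)))), hl]
    rw [inter_union_sdiff] at e
    rw [e, mul_assoc]
    refine mul_le_mul' (gibbsSum_emp_mono inter_subset_right _) ((ih (hQ.diff (hA a))).trans ?_)
    exact mul_le_mul_right (gibbsSum_emp_mono sdiff_subset _) _

/-- The translate `A + v`. -/
def tr (v : E3) (A : Set E3) : Set E3 := {y | y - v ∈ A}

theorem measurableSet_tr (v : E3) {A : Set E3} (hA : MeasurableSet A) : MeasurableSet (tr v A) :=
  (measurable_id.sub_const v) hA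

theorem gibbsSum_tr (v : E3) (A : Set E3) (F : Config → ℝ≥0∞) :
    gibbsSum φ β z (tr v A) emp F = gibbsSum φ β z A emp fun ω => F (shift v ω) := by
  rw [gibbsSum_eq, gibbsSum_eq]
  refine tsum_congr fun n => ?_
  unfold term
  congr 2
  have h := measurePreserving_add_right (volume : Measure (Fin n → E3)) fun _ => v
  rw [← h.setLIntegral_comp_preimage_emb (measurableEmbedding_addRight _)]
  have e : (fun x : Fin n → E3 => x + fun _ => v) ⁻¹' cyl (tr v A) n = cyl A n := by
    ext x; simp [cyl, tr]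
  rw [e]
  refine lintegral_congr fun x => ?_
  congr 1
  · simp [wt, field_emp, energy]
  · congr 1
    refine Config.ext' ?_
    show _ = (fun y => y + v) '' (glue A x emp).pts
    rw [glue_emp, glue_emp, ← range_comp]
    rfl

/-! ### Jensen's inequality for the exponential -/

theorem jensen_upper {Ω : Type*} [MeasurableSpace Ω] (P : Measure Ω) [IsProbabilityMeasure P]
    {f : Ω → ℝ} (hf : Measurable f) (h0 : ∀ ω, 0 ≤ f ω) {c : ℝ} (hc : 0 ≤ c)
    (h : ∫⁻ ω, ENNReal.ofReal (Real.exp (f ω)) ∂P ≤ ENNReal.ofReal (Real.exp c)) :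
    ∫⁻ ω, ENNReal.ofReal (f ω) ∂P ≤ ENNReal.ofReal c := by
  have h1 : ∀ ω, ENNReal.ofReal (f ω) + 1 ≤ ENNReal.ofReal c +
      ENNReal.ofReal (Real.exp (-c)) * ENNReal.ofReal (Real.exp (f ω)) := fun ω => by
    rw [← ENNReal.ofReal_mul (Real.exp_pos _).le, ← Real.exp_add, ← ENNReal.ofReal_one,
      ← ENNReal.ofReal_add (h0 ω) zero_le_one, ← ENNReal.ofReal_add hc (Real.exp_pos _).le]
    exact ENNReal.ofReal_le_ofReal (by linarith [Real.add_one_le_exp (-c + f ω)])
  have h2 := lintegral_mono (μ := P) h1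
  rw [lintegral_add_right _ measurable_const, lintegral_add_left measurable_const,
    lintegral_const_mul _ hf.exp.ennreal_ofReal] at h2
  simp only [lintegral_const, measure_univ, mul_one] at h2
  have h3 : ENNReal.ofReal (Real.exp (-c)) * ∫⁻ ω, ENNReal.ofReal (Real.exp (f ω)) ∂P ≤ 1 := by
    refine (mul_le_mul_right h _).trans ?_
    rw [← ENNReal.ofReal_mul (Real.exp_pos _).le, ← Real.exp_add]; simp
  exact (ENNReal.add_le_add_iff_right ENNReal.one_ne_top).1 (h2.trans (add_le_add_right h3 _))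

theorem jensen_lower {Ω : Type*} [MeasurableSpace Ω] (P : Measure Ω) [IsProbabilityMeasure P]
    {f : Ω → ℝ} (hf : Measurable f) (h0 : ∀ ω, 0 ≤ f ω) {c : ℝ}
    (h : ∫⁻ ω, ENNReal.ofReal (Real.exp (-f ω)) ∂P ≤ ENNReal.ofReal (Real.exp (-c))) :
    ENNReal.ofReal c ≤ ∫⁻ ω, ENNReal.ofReal (f ω) ∂P := by
  rcases le_total c 0 with hc | hc
  · rw [ENNReal.ofReal_of_nonpos hc]; exact zero_le
  have h1 : ∀ ω, ENNReal.ofReal c + 1 ≤ ENNReal.ofReal (f ω) +
      ENNReal.ofReal (Real.exp c) * ENNReal.ofReal (Real.exp (-f ω)) := fun ω => by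
    rw [← ENNReal.ofReal_mul (Real.exp_pos _).le, ← Real.exp_add, ← ENNReal.ofReal_one,
      ← ENNReal.ofReal_add hc zero_le_one, ← ENNReal.ofReal_add (h0 ω) (Real.exp_pos _).le]
    exact ENNReal.ofReal_le_ofReal (by linarith [Real.add_one_le_exp (c + -f ω)])
  have h2 := lintegral_mono (μ := P) h1
  have h4 : Measurable fun ω => ENNReal.ofReal (Real.exp (-f ω)) := hf.neg.exp.ennreal_ofReal
  rw [lintegral_add_left hf.ennreal_ofReal, lintegral_const_mul _ h4] at h2
  simp only [lintegral_const, measure_univ, mul_one] at h2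
  have h3 : ENNReal.ofReal (Real.exp c) * ∫⁻ ω, ENNReal.ofReal (Real.exp (-f ω)) ∂P ≤ 1 := by
    refine (mul_le_mul_right h _).trans ?_
    rw [← ENNReal.ofReal_mul (Real.exp_pos _).le, ← Real.exp_add]; simp
  exact (ENNReal.add_le_add_iff_right ENNReal.one_ne_top).1 (h2.trans (add_le_add_right h3 _))

end Vale.Agent.N171G
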