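import Vale.Agent.N171G.Avg
import Mathlib.Analysis.SpecialFunctions.JapaneseBracket

/-! Pointwise comparison of the Gibbs kernels with their truncations. -/

open MeasureTheory Bornology Filter Topology Set
open scoped ENNReal

namespace Vale.Agent.N171G

open Vale.Agent.P171

variable {φ : ℝ → ℝ} {β z B : ℝ} {Λ : Set E3} {g : E3 → ℝ}

/-- An integrable majorant of the interaction with far away points. -/
structure Dom (φ : ℝ → ℝ) (g : E3 → ℝ) : Prop where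
  meas : Measurable g
  nonneg : ∀ y, 0 ≤ g y
  int : ∫⁻ y, ENNReal.ofReal (g y) ≠ ⊤
  dom : ∀ m₀ : ℕ, ∃ m₁, m₀ ≤ m₁ ∧ ∀ x ∈ D m₀, ∀ y, y ∉ D m₁ → |φ ‖x - y‖| ≤ g y

theorem exists_dom {C ε R₀ : ℝ} (hε : 0 < ε) (hR : 0 < R₀)
    (h : ∀ r, R₀ ≤ r → |φ r| ≤ C * r ^ (-(3 + ε))) : ∃ g, Dom φ g := by
  have hC : 0 ≤ C := by
    have h1 := (abs_nonneg _).trans (h R₀ le_rfl)
    exact nonneg_of_mul_nonneg_left h1 (Real.rpow_pos_of_pos hR _)
  refine ⟨fun y => C * ((1 + ‖y‖) / 2) ^ (-(3 + ε)), by fun_prop, fun y => by positivity, ?_,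
    fun m₀ => ?_⟩
  · have h1 : Integrable fun y : E3 => (1 + ‖y‖) ^ (-(3 + ε)) :=
      integrable_one_add_norm (by simp; linarith)
    have h2 := h1.const_mul (C / 2 ^ (-(3 + ε)))
    refine ((h2.congr (Eventually.of_forall fun y => ?_)).lintegral_lt_top).ne
    show _ = C * ((1 + ‖y‖) / 2) ^ (-(3 + ε))
    rw [Real.div_rpow (by positivity) (by norm_num)]
    ring
  · obtain ⟨k, hk⟩ := exists_nat_gt R₀
    refine ⟨6 * m₀ + 1 + k, by omega, fun x hx y hy => ?_⟩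
    have h1 : ‖x‖ ≤ 3 * m₀ := norm_le_of_coord fun i => abs_le.2 ⟨(hx i).1, (hx i).2.le⟩
    have h2 : ((6 * m₀ + 1 + k : ℕ) : ℝ) ≤ ‖y‖ := not_lt.1 fun h => hy (mem_D_of_norm h)
    push_cast at h2
    have h3 : ‖y‖ - ‖x‖ ≤ ‖x - y‖ := by rw [norm_sub_rev]; exact norm_sub_norm_le y x
    have h4 : (0 : ℝ) ≤ m₀ := Nat.cast_nonneg _
    refine (h _ (by linarith)).trans (mul_le_mul_of_nonneg_left ?_ hC)
    exact Real.rpow_le_rpow_of_nonpos (by positivity) (by linarith) (by linarith)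

/-- The majorant summed over the points outside `D m`. -/
noncomputable def tau (g : E3 → ℝ) (m : ℕ) (ω : Config) : ℝ≥0∞ :=
  S ((D m)ᶜ.indicator fun y => ENNReal.ofReal (g y)) ω

theorem tau_le (m : ℕ) (ω : Config) : tau g m ω ≤ S (fun y => ENNReal.ofReal (g y)) ω :=
  ENNReal.tsum_le_tsum fun _ => indicator_le_self _ _ _

theorem measurable_tail (hg : Measurable g) (m : ℕ) :
    Measurable ((D m)ᶜ.indicator fun y => ENNReal.ofReal (g y)) :=
  hg.ennreal_ofReal.indicator (measurableSet_D m).compl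

theorem tendsto_tail (hg : Measurable g) {ν : Measure E3}
    (h : ∫⁻ y, ENNReal.ofReal (g y) ∂ν ≠ ⊤) :
    Tendsto (fun m => ∫⁻ y, (D m)ᶜ.indicator (fun y => ENNReal.ofReal (g y)) y ∂ν) atTop
      (𝓝 0) := by
  have h1 := tendsto_lintegral_of_dominated_convergence (μ := ν) (f := fun _ => 0)
    (fun y => ENNReal.ofReal (g y)) (measurable_tail hg)
    (fun m => Eventually.of_forall fun y => indicator_le_self _ _ _) h
    (Eventually.of_forall fun y => ?_)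
  · simpa using h1
  · obtain ⟨m, hm⟩ := exists_subset_D (isBounded_singleton (x := y))
    refine tendsto_const_nhds.congr' ?_
    filter_upwards [eventually_ge_atTop m] with k hk
    exact (indicator_of_notMem (notMem_compl_iff.2 (D_mono hk (hm rfl))) _).symm

theorem tendsto_tau (hg : Measurable g) {ω : Config}
    (h : S (fun y => ENNReal.ofReal (g y)) ω ≠ ⊤) :
    Tendsto (fun m => (tau g m ω).toReal) atTop (𝓝 0) := by
  have e : ∀ f : E3 → ℝ≥0∞, S f ω =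
      ∫⁻ y, f y ∂Measure.sum fun v : ω.pts => Measure.dirac (v : E3) := fun f => by
    simp only [lintegral_sum_measure, lintegral_dirac]; rfl
  have h1 := tendsto_tail hg (by rwa [e] at h)
  simp only [← e] at h1
  exact (ENNReal.tendsto_toReal ENNReal.zero_ne_top).comp h1

theorem field_trunc (h0 : ∀ y, 0 ≤ g y) {m : ℕ} {ω : Config} (hτ : tau g m ω ≠ ⊤)
    (hs : Λ ⊆ D m) {x : E3} (hd : ∀ y, y ∉ D m → |φ ‖x - y‖| ≤ g y) :
    (Summable fun y : ↥(ω.pts \ Λ) => |φ ‖x - y‖|) ∧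
      |field φ Λ ω x - field φ Λ (restr (D m) ω) x| ≤ (tau g m ω).toReal := by
  have e : ω.pts \ Λ = ((restr (D m) ω).pts \ Λ) ∪ (restr (D m)ᶜ ω).pts := by
    ext y
    constructor
    · intro hy
      by_cases h : y ∈ D m
      exacts [Or.inl ⟨⟨hy.1, h⟩, hy.2⟩, Or.inr ⟨hy.1, h⟩]
    · rintro (hy | hy)
      exacts [⟨hy.1.1, hy.2⟩, ⟨hy.1, fun h => hy.2 (hs h)⟩]
  have hdis : Disjoint ((restr (D m) ω).pts \ Λ) (restr (D m)ᶜ ω).pts :=
    disjoint_left.2 fun y h1 h2 => h2.2 h1.1.2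
  have hfin : ((restr (D m) ω).pts \ Λ).Finite := (ω.fin _ (isBounded_D m)).sdiff
  rw [tau, ← S_restr] at hτ ⊢
  have h1 : HasSum (fun y : (restr (D m)ᶜ ω).pts => g y)
      (S (fun y => ENNReal.ofReal (g y)) (restr (D m)ᶜ ω)).toReal := by
    have h2 := ENNReal.hasSum_toReal hτ
    rw [← ENNReal.tsum_toReal_eq fun _ => ENNReal.ofReal_ne_top] at h2
    simpa only [ENNReal.toReal_ofReal (h0 _), S] using h2
  have h2 : Summable fun y : (restr (D m)ᶜ ω).pts => |φ ‖x - y‖| :=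
    Summable.of_nonneg_of_le (fun _ => abs_nonneg _) (fun y => hd y y.2.2) h1.summable
  constructor
  · rw [e]
    exact ((hfin.summable fun y => |φ ‖x - y‖|).hasSum.add_disjoint hdis h2.hasSum).summable
  · have h3 : field φ Λ ω x = field φ Λ (restr (D m) ω) x +
        ∑' y : (restr (D m)ᶜ ω).pts, φ ‖x - y‖ := by
      unfold field
      rw [e]
      exact Summable.tsum_union_disjoint (f := fun y => φ ‖x - y‖) hdis (hfin.summable _)
        h2.of_abs
    rw [h3, add_sub_cancel_left]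
    exact tsum_of_norm_bounded (f := fun y : (restr (D m)ᶜ ω).pts => φ ‖x - y‖) h1
      fun y => hd y y.2.2

theorem gibbsSum_le_shift (hβ : 0 ≤ β) (hΛ : MeasurableSet Λ) {z₁ z₂ t : ℝ} (hz : 0 ≤ z₁)
    (hz' : z₁ * Real.exp (β * t) ≤ z₂) {ω₁ ω₂ : Config}
    (ht : ∀ x ∈ Λ, |field φ Λ ω₁ x - field φ Λ ω₂ x| ≤ t) {F F' : Config → ℝ≥0∞}
    (hF : ∀ n, ∀ x ∈ cyl Λ n, Function.Injective x → F (glue Λ x ω₁) ≤ F' (glue Λ x ω₂)) :
    gibbsSum φ β z₁ Λ ω₁ F ≤ gibbsSum φ β z₂ Λ ω₂ F' := by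
  refine gibbsSum_le_of_wt hΛ hz (Real.exp_pos _).le hz' fun n x hx hi => ?_
  rw [← mul_assoc]
  refine mul_le_mul' ?_ (hF n x hx hi)
  rw [wt, wt, ← ENNReal.ofReal_mul (by positivity), ← Real.exp_nat_mul, ← Real.exp_add]
  refine ENNReal.ofReal_le_ofReal (Real.exp_le_exp.2 ?_)
  have h1 := Finset.sum_le_card_nsmul Finset.univ
    (fun i => field φ Λ ω₂ (x i) - field φ Λ ω₁ (x i)) t
    fun i _ => by linarith [(abs_le.1 (ht _ (hx i))).1]
  rw [nsmul_eq_mul, Finset.card_univ, Fintype.card_fin, Finset.sum_sub_distrib] at h1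
  nlinarith [mul_le_mul_of_nonneg_left h1 hβ]

/-- The indicator of `n ≤ K`. -/
noncomputable def lo (K n : ℕ) : ℝ≥0∞ := if n ≤ K then 1 else 0

/-- The indicator of `n > K`. -/
noncomputable def hi (K n : ℕ) : ℝ≥0∞ := if n ≤ K then 0 else 1

theorem lo_le_one (K n : ℕ) : lo K n ≤ 1 := by unfold lo; split_ifs <;> simp

theorem gibbsSum_trunc_le (hm : Ms φ) (hβ : 0 ≤ β) (hΛ : MeasurableSet Λ) {z₁ z₂ t c : ℝ}
    (hz : 0 ≤ z₁) (hc : 1 ≤ c) (hz' : z₁ * Real.exp (β * t) ≤ c * z₂) {ω₁ ω₂ : Config}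
    (ht : ∀ x ∈ Λ, |field φ Λ ω₁ x - field φ Λ ω₂ x| ≤ t) {F F' : Config → ℝ≥0∞}
    (hF' : Measurable F') (K : ℕ)
    (hF : ∀ n, n ≤ K → ∀ x ∈ cyl Λ n, Function.Injective x →
      F (glue Λ x ω₁) ≤ F' (glue Λ x ω₂)) :
    gibbsSum φ β z₁ Λ ω₁ (fun η => lo K (NL Λ η) * F η) ≤
      ENNReal.ofReal (c ^ K) * gibbsSum φ β z₂ Λ ω₂ F' := by
  refine (gibbsSum_le_shift hβ hΛ hz hz' ht (F' := fun η => lo K (NL Λ η) * F' η)
    fun n x hx hi => ?_).trans ?_
  · simp only [NL_glue hx hi, lo]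
    split_ifs with h
    · exact mul_le_mul_right (hF n h x hx hi) _
    · simp
  · rw [gibbsSum_mul_z hΛ _ _ (zero_le_one.trans hc), ← gibbsSum_const_mul hm hΛ hF']
    refine gibbsSum_mono hΛ fun n x hx hi => ?_
    simp only [NL_glue hx hi, lo]
    split_ifs with h
    · rw [one_mul]
      exact mul_le_mul_left (ENNReal.ofReal_le_ofReal (pow_le_pow_right₀ hc h)) _
    · simp

theorem indicator_glue {m : ℕ} {A : Set Config} (hA : Loc (D m) A) {n : ℕ} (x : Fin n → E3)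
    (ω : Config) : A.indicator (1 : Config → ℝ≥0∞) (glue Λ x (restr (D m) ω)) =
      A.indicator 1 (glue Λ x ω) := by
  have e : restr (D m) (glue Λ x (restr (D m) ω)) = restr (D m) (glue Λ x ω) := by
    refine Config.ext' (Set.ext fun y => ⟨?_, ?_⟩)
    · rintro ⟨h | h, hy⟩
      exacts [⟨Or.inl h, hy⟩, ⟨Or.inr ⟨h.1.1, h.2⟩, hy⟩]
    · rintro ⟨h | h, hy⟩
      exacts [⟨Or.inl h, hy⟩, ⟨Or.inr ⟨⟨h.1, hy⟩, h.2⟩, hy⟩]
  have h : glue Λ x (restr (D m) ω) ∈ A ↔ glue Λ x ω ∈ A := by rw [← hA, e, hA]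
  by_cases h1 : glue Λ x ω ∈ A
  · rw [indicator_of_mem h1, indicator_of_mem (h.2 h1)]; rfl
  · rw [indicator_of_notMem h1, indicator_of_notMem fun h2 => h1 (h.1 h2)]

/-- The conditional probability of `A` and at most `K` points in `Λ`. -/
noncomputable def Phi (φ : ℝ → ℝ) (β z : ℝ) (Λ : Set E3) (A : Set Config) (K : ℕ) (ω : Config) :
    ℝ≥0∞ :=
  gibbsSum φ β z Λ ω (fun η => lo K (NL Λ η) * A.indicator 1 η) / gibbsSum φ β z Λ ω 1

theorem measurable_loA (hΛ : MeasurableSet Λ) (hb : IsBounded Λ) {A : Set Config}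
    (hA : MeasurableSet A) (K : ℕ) :
    Measurable fun η => lo K (NL Λ η) * A.indicator (1 : Config → ℝ≥0∞) η :=
  (measurable_NL' hΛ hb (lo K)).mul (measurable_one.indicator hA)

theorem measurable_Phi (hm : Ms φ) (hΛ : MeasurableSet Λ) (hb : IsBounded Λ) {A : Set Config}
    (hA : MeasurableSet A) (K : ℕ) : Measurable (Phi φ β z Λ A K) :=
  (measurable_gibbsSum hm hΛ (measurable_loA hΛ hb hA K)).div
    (measurable_gibbsSum hm hΛ measurable_one)

theorem Phi_le_one (hΛ : MeasurableSet Λ) (A : Set Config) (K : ℕ) (ω : Config) :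
    Phi φ β z Λ A K ω ≤ 1 := by
  refine ENNReal.div_le_of_le_mul ?_
  rw [one_mul]
  refine gibbsSum_mono hΛ fun n x _ _ => mul_le_one' (lo_le_one _ _) ?_
  exact indicator_le_self' (fun _ _ => zero_le) _

theorem volume_ne_top {m : ℕ} (hs : Λ ⊆ D m) : volume Λ ≠ ⊤ :=
  ne_top_of_le_ne_top ENNReal.ofReal_ne_top ((measure_mono hs).trans (volume_D_le m))

theorem Phi_restr_le (h : Good φ B) (hβ : 0 ≤ β) (hΛ : MeasurableSet Λ) (h0 : ∀ y, 0 ≤ g y)
    {m : ℕ} (hs : Λ ⊆ D m) (hd : ∀ x ∈ Λ, ∀ y, y ∉ D m → |φ ‖x - y‖| ≤ g y) {A : Set Config}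
    (hA : MeasurableSet A) (hl : Loc (D m) A) (K : ℕ) {z' η : ℝ} (hz : 0 ≤ z) (hz' : 0 ≤ z')
    (hη : 0 ≤ η) (h1 : z ≤ Real.exp η * z') (h2 : z' ≤ Real.exp η * z) {ω : Config}
    (hω : ω.pts.Finite) :
    Phi φ β z Λ A K (restr (D m) ω) ≤
      gibbsSum φ β z' Λ ω (fun ω' => ENNReal.ofReal (Real.exp (η + β * η) ^ K) ^ 2 *
        A.indicator 1 ω' + hi K (NL Λ ω')) / gibbsSum φ β z' Λ ω 1 +
      {ω | ENNReal.ofReal η < tau g m ω}.indicator 1 ω := by
  by_cases hτ : ENNReal.ofReal η < tau g m ω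
  · rw [indicator_of_mem (s := {ω | ENNReal.ofReal η < tau g m ω}) hτ]
    exact (Phi_le_one hΛ _ _ _).trans le_add_self
  refine le_trans ?_ le_self_add
  have hb : IsBounded Λ := (isBounded_D m).subset hs
  have hτ' := not_lt.1 hτ
  have ht : ∀ x ∈ Λ, |field φ Λ ω x - field φ Λ (restr (D m) ω) x| ≤ η := fun x hx =>
    (field_trunc h0 (ne_top_of_le_ne_top ENNReal.ofReal_ne_top hτ') hs (hd x hx)).2.trans
      (ENNReal.toReal_le_of_le_ofReal hη hτ')
  have hc : 1 ≤ Real.exp (η + β * η) := Real.one_le_exp (by positivity)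
  have hA1 : Measurable (A.indicator (1 : Config → ℝ≥0∞)) := measurable_one.indicator hA
  have ha := gibbsSum_trunc_le h.ms hβ hΛ (z₁ := z) (z₂ := z') (t := η) hz hc
    (by rw [Real.exp_add]; nlinarith [Real.exp_pos (β * η)]) (ω₁ := restr (D m) ω) (ω₂ := ω)
    (fun x hx => by rw [abs_sub_comm]; exact ht x hx) (F := A.indicator 1) hA1 K
    fun n _ x _ _ => (indicator_glue hl x ω).le
  have hsK := gibbsSum_trunc_le h.ms hβ hΛ (z₁ := z') (z₂ := z) (t := η) hz' hc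
    (by rw [Real.exp_add]; nlinarith [Real.exp_pos (β * η)]) ht (F := 1) measurable_one K
    fun n _ x _ _ => le_rfl
  have hhi := measurable_NL' hΛ hb (hi K)
  have hZ : gibbsSum φ β z' Λ ω 1 =
      gibbsSum φ β z' Λ ω (fun η => lo K (NL Λ η) * (1 : Config → ℝ≥0∞) η) +
        gibbsSum φ β z' Λ ω fun η => hi K (NL Λ η) := by
    have hlo : Measurable fun η => lo K (NL Λ η) * (1 : Config → ℝ≥0∞) η :=
      (measurable_NL' hΛ hb (lo K)).mul measurable_one
    rw [← gibbsSum_add h.ms hΛ hlo hhi]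
    congr 1
    funext η
    simp only [lo, hi, Pi.one_apply]
    split_ifs <;> simp
  rw [gibbsSum_add h.ms hΛ (hA1.const_mul _) hhi, gibbsSum_const_mul h.ms hΛ hA1,
    ENNReal.le_div_iff_mul_le (Or.inl (gibbsSum_ne_zero _))
      (Or.inl (gibbsSum_ne_top h hβ hz' hΛ (volume_ne_top hs) hω.sdiff)), hZ, mul_add]
  refine add_le_add ?_ (mul_le_of_le_one_left' (Phi_le_one hΛ _ _ _))
  refine (mul_le_mul_right hsK _).trans ?_
  rw [mul_left_comm, sq, mul_assoc, mul_comm (Phi φ β z Λ A K _)]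
  exact mul_le_mul_right (ENNReal.mul_div_le.trans ha) _

theorem gibbsSum_ne_top' (h : Good φ B) (hβ : 0 ≤ β) (hz : 0 ≤ z) (hΛ : MeasurableSet Λ)
    (hb : IsBounded Λ) (hg : Dom φ g) {ω : Config}
    (hω : S (fun y => ENNReal.ofReal (g y)) ω ≠ ⊤) : gibbsSum φ β z Λ ω 1 ≠ ⊤ := by
  obtain ⟨m₀, h0⟩ := exists_subset_D hb
  obtain ⟨m, hm, hd⟩ := hg.dom m₀
  have hs := h0.trans (D_mono hm)
  refine ne_top_of_le_ne_top ?_ (gibbsSum_le_shift hβ hΛ hz le_rfl (F' := 1)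
    (fun x hx => (field_trunc hg.nonneg (ne_top_of_le_ne_top hω (tau_le m ω)) hs
      (hd x (h0 hx))).2) fun _ _ _ _ => le_rfl)
  exact gibbsSum_ne_top h hβ (by positivity) hΛ (volume_ne_top hs)
    (ω.fin _ (isBounded_D m)).sdiff

theorem admissible (hg : Dom φ g) {ω : Config} (hω : S (fun y => ENNReal.ofReal (g y)) ω ≠ ⊤) :
    Admissible φ ω := fun Λ hb x hx => by
  obtain ⟨m₀, h0⟩ := exists_subset_D hb
  obtain ⟨m, hm, hd⟩ := hg.dom m₀
  exact (field_trunc hg.nonneg (ne_top_of_le_ne_top hω (tau_le m ω)) (h0.trans (D_mono hm))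
    (hd x (h0 hx))).1

theorem Phi_le_liminf (h : Good φ B) (hβ : 0 ≤ β) (hz : 0 ≤ z) (hΛ : MeasurableSet Λ)
    (hb : IsBounded Λ) (hg : Dom φ g) {A : Set Config} (hA : MeasurableSet A) {mA : ℕ}
    (hl : Loc (D mA) A) (K : ℕ) {ω : Config} (hω : S (fun y => ENNReal.ofReal (g y)) ω ≠ ⊤) :
    Phi φ β z Λ A K ω ≤ liminf (fun m => Phi φ β z Λ A K (restr (D m) ω)) atTop := by
  obtain ⟨m₀, h0⟩ := exists_subset_D hb
  obtain ⟨m₁, hm, hd⟩ := hg.dom m₀
  have hc : Tendsto (fun m => Real.exp (β * (tau g m ω).toReal)) atTop (𝓝 1) := by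
    have := ((tendsto_tau hg.meas hω).const_mul β).rexp
    rwa [mul_zero, Real.exp_zero] at this
  have hcn : ∀ n : ℕ, Tendsto (fun m => ENNReal.ofReal (Real.exp (β * (tau g m ω).toReal) ^ n))
      atTop (𝓝 1) := fun n => by
    have := ENNReal.tendsto_ofReal (hc.pow n)
    rwa [one_pow, ENNReal.ofReal_one] at this
  have hY : ∀ c : ℝ, 0 ≤ c → gibbsSum φ β (c * z) Λ ω 1 =
      ∫⁻ η, ENNReal.ofReal (c ^ NL Λ η) ∂gm φ β z Λ ω := fun c hc => by
    rw [gibbsSum_mul_z hΛ _ _ hc, lintegral_gm h.ms hΛ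
      (measurable_NL' hΛ hb fun n => ENNReal.ofReal (c ^ n))]
    simp only [Pi.one_apply, mul_one]
  have hZ : Tendsto (fun m => gibbsSum φ β (Real.exp (β * (tau g m ω).toReal) * z) Λ ω 1) atTop
      (𝓝 (gibbsSum φ β z Λ ω 1)) := by
    simp only [hY _ (Real.exp_pos _).le]
    rw [← lintegral_gm h.ms hΛ measurable_one]
    refine tendsto_lintegral_of_dominated_convergence (fun η => ENNReal.ofReal
      (Real.exp (β * (S (fun y => ENNReal.ofReal (g y)) ω).toReal) ^ NL Λ η))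
      (fun m => measurable_NL' hΛ hb fun n =>
        ENNReal.ofReal (Real.exp (β * (tau g m ω).toReal) ^ n))
      (fun m => Eventually.of_forall fun η => ENNReal.ofReal_le_ofReal ?_) ?_
      (Eventually.of_forall fun η => hcn _)
    · gcongr
      exact tau_le m ω
    · rw [← hY _ (Real.exp_pos _).le]
      exact gibbsSum_ne_top' h hβ (by positivity) hΛ hb hg hω
  have hfin := gibbsSum_ne_top' h hβ hz hΛ hb hg hω
  have h1 := ENNReal.Tendsto.mul (hcn K) (Or.inl one_ne_zero) hZ (Or.inr ENNReal.one_ne_top)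
  rw [one_mul] at h1
  have h2 := ENNReal.Tendsto.const_div
    (a := gibbsSum φ β z Λ ω fun η => lo K (NL Λ η) * A.indicator 1 η) h1 (Or.inl hfin)
  rw [Phi, ← h2.liminf_eq]
  refine liminf_le_liminf ?_
  filter_upwards [eventually_ge_atTop m₁, eventually_ge_atTop mA] with m h3 h4
  have hs := h0.trans (D_mono (hm.trans h3))
  have ht : ∀ x ∈ Λ, |field φ Λ ω x - field φ Λ (restr (D m) ω) x| ≤ (tau g m ω).toReal :=
    fun x hx => (field_trunc hg.nonneg (ne_top_of_le_ne_top hω (tau_le m ω)) hs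
      fun y hy => hd x (h0 hx) y fun h5 => hy (D_mono h3 h5)).2
  have h5 := gibbsSum_trunc_le h.ms hβ hΛ (z₁ := z) (z₂ := z) hz
    (Real.one_le_exp (mul_nonneg hβ ENNReal.toReal_nonneg)) (mul_comm _ _).le ht
    (F := A.indicator 1) (measurable_loA hΛ hb hA K) K fun n hn x hx hi => by
      simp only [NL_glue hx hi, lo, if_pos hn, one_mul, indicator_glue (hl.mono (D_mono h4))]
      exact le_rfl
  have h6 := gibbsSum_le_shift hβ hΛ hz (mul_comm _ _).le (ω₁ := restr (D m) ω) (ω₂ := ω)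
    (fun x hx => by rw [abs_sub_comm]; exact ht x hx) (F := 1) (F' := 1) fun _ _ _ _ => le_rfl
  refine (ENNReal.div_le_div h5 (mul_le_mul_right h6 _)).trans (le_of_eq ?_)
  exact ENNReal.mul_div_mul_left _ _ (ENNReal.ofReal_pos.2 (by positivity)).ne'
    ENNReal.ofReal_ne_top

theorem tendsto_Phi (hm : Ms φ) (hΛ : MeasurableSet Λ) (hb : IsBounded Λ) {A : Set Config}
    (hA : MeasurableSet A) (ω : Config) : Tendsto (fun K => Phi φ β z Λ A K ω) atTop
      (𝓝 (gibbsSum φ β z Λ ω (A.indicator 1) / gibbsSum φ β z Λ ω 1)) := by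
  refine ENNReal.Tendsto.div_const ?_ (Or.inr (gibbsSum_ne_zero _))
  simp only [← lintegral_gm hm hΛ (measurable_loA hΛ hb hA _)]
  rw [← lintegral_gm hm hΛ (measurable_one.indicator hA)]
  refine lintegral_tendsto_of_tendsto_of_monotone
    (fun K => (measurable_loA hΛ hb hA K).aemeasurable)
    (Eventually.of_forall fun η K K' hK => mul_le_mul_left ?_ _)
    (Eventually.of_forall fun η => tendsto_const_nhds.congr' ?_)
  · unfold lo
    split_ifs with h1 h2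
    exacts [le_rfl, absurd (h1.trans hK) h2, zero_le, le_rfl]
  · filter_upwards [eventually_ge_atTop (NL Λ η)] with K hK
    rw [lo, if_pos hK, one_mul]

end Vale.Agent.N171G
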