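import Vale.Agent.N171G.Pass
import Vale.Agent.P171.H709.Defs
import Mathlib.Analysis.Convex.Deriv

/-! One-sided derivatives of the pressure are intensities of invariant Gibbs processes. -/

open MeasureTheory Bornology Filter Topology Set
open scoped ENNReal

namespace Vale.Agent.N171G

open Vale.Agent.P171

variable {φ : ℝ → ℝ} {β B L : ℝ} {g : E3 → ℝ}

theorem Xi_eq (z L : ℝ) : Xi φ β z L = gibbsSum φ β z (box L) emp 1 := by
  simp only [Xi, Z, gibbsSum, field_emp, Finset.sum_const_zero, add_zero, Pi.one_apply, mul_one]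

/-- The logarithm of the partition function at activity `exp μ`. -/
noncomputable def lp (φ : ℝ → ℝ) (β L μ : ℝ) : ℝ := Real.log (Xi φ β (Real.exp μ) L).toReal

/-- The mean number of particles at activity `exp μ`. -/
noncomputable def mean (φ : ℝ → ℝ) (β L μ : ℝ) : ℝ≥0∞ :=
  ∫⁻ ω, (NL (box L) ω : ℝ≥0∞) ∂fin φ β (Real.exp μ) (box L)

section
variable (h : Good φ B) (hβ : 0 ≤ β) (hL : 0 ≤ L)
include h hβ hL

theorem gibbsSum_box (μ : ℝ) :
    gibbsSum φ β (Real.exp μ) (box L) emp 1 = ENNReal.ofReal (Real.exp (lp φ β L μ)) := by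
  have h1 : gibbsSum φ β (Real.exp μ) (box L) emp 1 ≠ ⊤ :=
    gibbsSum_ne_top h hβ (Real.exp_pos _).le (measurableSet_box' L)
      (by rw [volume_box' hL]; exact ENNReal.ofReal_ne_top) (emp_finite _)
  rw [lp, Xi_eq, Real.exp_log (ENNReal.toReal_pos (gibbsSum_ne_zero _) h1),
    ENNReal.ofReal_toReal h1]

theorem exp_moment (μ a : ℝ) :
    ∫⁻ ω, ENNReal.ofReal (Real.exp (a * NL (box L) ω)) ∂fin φ β (Real.exp μ) (box L) =
      ENNReal.ofReal (Real.exp (lp φ β L (μ + a) - lp φ β L μ)) := by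
  have hB := measurableSet_box' L
  have h1 := gibbsSum_mul_z (φ := φ) (β := β) (z := Real.exp μ) hB emp 1 (Real.exp_pos a).le
  rw [← Real.exp_add, add_comm a μ, gibbsSum_box h hβ hL] at h1
  simp only [Pi.one_apply, mul_one, ← Real.exp_nat_mul, mul_comm _ a] at h1
  rw [lintegral_fin h.ms hB (measurable_NL' hB (isBounded_cube 0 L)
    fun n => ENNReal.ofReal (Real.exp (a * n))), ← h1, gibbsSum_box h hβ hL,
    ← ENNReal.ofReal_inv_of_pos (Real.exp_pos _), ← ENNReal.ofReal_mul (by positivity),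
    Real.exp_sub, div_eq_inv_mul]

theorem lintegral_mul_NL (μ : ℝ) {a : ℝ} (ha : 0 ≤ a) :
    ∫⁻ ω, ENNReal.ofReal (a * NL (box L) ω) ∂fin φ β (Real.exp μ) (box L) =
      ENNReal.ofReal a * mean φ β L μ := by
  have _ := h
  have _ := hβ
  have _ := hL
  rw [mean, ← lintegral_const_mul _ (measurable_NL' (measurableSet_box' L) (isBounded_cube 0 L)
    fun n => (n : ℝ≥0∞))]
  simp only [ENNReal.ofReal_mul ha, ENNReal.ofReal_natCast]

theorem mean_upper (μ : ℝ) {a : ℝ} (ha : 0 < a) :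
    mean φ β L μ ≠ ⊤ ∧ (mean φ β L μ).toReal ≤ (lp φ β L (μ + a) - lp φ β L μ) / a := by
  have := prob_box h hβ (Real.exp_pos μ).le hL
  have h1 := exp_moment h hβ hL μ a
  have h2 : 0 ≤ lp φ β L (μ + a) - lp φ β L μ := by
    rw [← Real.one_le_exp_iff, ← ENNReal.one_le_ofReal, ← h1]
    refine le_trans (by simp) (lintegral_mono (f := fun _ => 1) fun ω => ?_)
    exact ENNReal.one_le_ofReal.2 (Real.one_le_exp (by positivity))
  have h3 := jensen_upper _ (measurable_NL' (measurableSet_box' L) (isBounded_cube 0 L)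
    fun n => a * (n : ℝ)) (fun ω => by positivity) h2 h1.le
  rw [lintegral_mul_NL h hβ hL μ ha.le] at h3
  have h4 : mean φ β L μ ≠ ⊤ := fun h4 => by
    rw [h4, ENNReal.mul_top (ENNReal.ofReal_pos.2 ha).ne'] at h3
    exact ENNReal.ofReal_ne_top (top_le_iff.1 h3)
  refine ⟨h4, ?_⟩
  have h5 := ENNReal.toReal_le_of_le_ofReal h2 h3
  rw [ENNReal.toReal_mul, ENNReal.toReal_ofReal ha.le] at h5
  rw [le_div_iff₀' ha]
  exact h5

theorem mean_lower (μ : ℝ) {a : ℝ} (ha : 0 < a) :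
    (lp φ β L μ - lp φ β L (μ - a)) / a ≤ (mean φ β L μ).toReal := by
  have := prob_box h hβ (Real.exp_pos μ).le hL
  have h1 := exp_moment h hβ hL μ (-a)
  rw [← neg_sub (lp φ β L μ), ← sub_eq_add_neg] at h1
  simp only [neg_mul] at h1
  have h3 := jensen_lower _ (measurable_NL' (measurableSet_box' L) (isBounded_cube 0 L)
    fun n => a * (n : ℝ)) (fun ω => by positivity) h1.le
  rw [lintegral_mul_NL h hβ hL μ ha.le, ENNReal.ofReal_le_iff_le_toReal
    (ENNReal.mul_ne_top ENNReal.ofReal_ne_top (mean_upper h hβ hL μ ha).1), ENNReal.toReal_mul,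
    ENNReal.toReal_ofReal ha.le] at h3
  rw [div_le_iff₀' ha]
  exact h3

end

section
variable (h : Good φ B) (hβ : 0 ≤ β) {q : ℝ → ℝ}
  (hq : ∀ μ, Tendsto (fun L => lp φ β L μ / L ^ 3) atTop (𝓝 (q μ)))
include h hβ hq

theorem convex_limit : ConvexOn ℝ univ q := by
  refine convexOn_of_slope_mono_adjacent convex_univ fun {x y w} _ _ hxy hyw => ?_
  refine le_of_tendsto_of_tendsto (((hq y).sub (hq x)).div_const _)
    (((hq w).sub (hq y)).div_const _) ?_
  filter_upwards [eventually_gt_atTop 0] with L hL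
  have h1 := mean_lower h hβ hL.le y (sub_pos.2 hxy)
  have h2 := (mean_upper h hβ hL.le y (sub_pos.2 hyw)).2
  rw [sub_sub_cancel] at h1
  rw [add_sub_cancel] at h2
  have h3 := div_le_div_of_nonneg_right (h1.trans h2) (pow_pos hL 3).le
  calc _ = (lp φ β L y - lp φ β L x) / (y - x) / L ^ 3 := by ring
    _ ≤ _ := h3
    _ = _ := by ring

theorem gibbs_of_slopes (hg : Dom φ g) {μ d : ℝ} {μs a : ℕ → ℝ} (ha : ∀ n, 0 < a n)
    (hμ : Tendsto μs atTop (𝓝 μ))
    (h1 : Tendsto (fun n => (q (μs n) - q (μs n - a n)) / a n) atTop (𝓝 d))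
    (h2 : Tendsto (fun n => (q (μs n + a n) - q (μs n)) / a n) atTop (𝓝 d)) :
    0 ≤ d ∧ ∃ P : Measure Config,
      IsGibbs φ β (Real.exp μ) P ∧ Invariant P ∧ intensity P = ENNReal.ofReal d := by
  have hex : ∀ n : ℕ, ∃ L : ℝ, (n : ℝ) + 1 ≤ L ∧
      (q (μs n) - q (μs n - a n)) / a n - 1 / ((n : ℝ) + 1) ≤ (mean φ β L (μs n)).toReal / L ^ 3 ∧
      (mean φ β L (μs n)).toReal / L ^ 3 ≤
        (q (μs n + a n) - q (μs n)) / a n + 1 / ((n : ℝ) + 1) := fun n => by
    have hn : (0 : ℝ) < 1 / ((n : ℝ) + 1) := by positivity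
    have e1 := (((hq (μs n)).sub (hq (μs n - a n))).div_const (a n)).eventually
      (eventually_ge_nhds (sub_lt_self _ hn))
    have e2 := (((hq (μs n + a n)).sub (hq (μs n))).div_const (a n)).eventually
      (eventually_le_nhds (lt_add_of_pos_right _ hn))
    obtain ⟨L, h3, h4, h5⟩ := ((eventually_ge_atTop ((n : ℝ) + 1)).and (e1.and e2)).exists
    have hL : 0 < L := lt_of_lt_of_le (by positivity) h3
    refine ⟨L, h3, h4.trans ?_, le_trans ?_ h5⟩
    · refine le_trans (le_of_eq ?_) (div_le_div_of_nonneg_right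
        (mean_lower h hβ hL.le (μs n) (ha n)) (pow_pos hL 3).le)
      ring
    · refine (div_le_div_of_nonneg_right (mean_upper h hβ hL.le (μs n) (ha n)).2
        (pow_pos hL 3).le).trans (le_of_eq ?_)
      ring
  choose Ls hL1 hL2 hL3 using hex
  have hL0 : ∀ n, 0 < Ls n := fun n => lt_of_lt_of_le (by positivity) (hL1 n)
  have tL : Tendsto Ls atTop atTop := tendsto_atTop_mono hL1
    (tendsto_atTop_add_const_right _ _ tendsto_natCast_atTop_atTop)
  have t0 := tendsto_one_div_add_atTop_nhds_zero_nat (𝕜 := ℝ)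
  have t1 : Tendsto (fun n => (mean φ β (Ls n) (μs n)).toReal / Ls n ^ 3) atTop (𝓝 d) :=
    tendsto_of_tendsto_of_tendsto_of_le_of_le (by simpa only [sub_zero] using h1.sub t0)
      (by simpa only [add_zero] using h2.add t0) hL2 hL3
  refine ⟨ge_of_tendsto' t1 fun n => by have := hL0 n; positivity, ?_⟩
  refine Seq.exists_gibbs (B := B) (g := g) (zs := fun n => Real.exp (μs n)) (Ls := Ls)
    ⟨h, hg, hβ, Real.exp_pos μ, fun n => (Real.exp_pos _).le, fun n => (hL0 n).le, hμ.rexp, tL,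
      ?_, ENNReal.ofReal_ne_top⟩
  have t2 := ENNReal.tendsto_ofReal (t1.mul ((tendsto_ratio 0).comp tL))
  rw [mul_one] at t2
  refine t2.congr fun n => ?_
  have h3 := hL0 n
  show _ = (volume (cube (-Ls n) 1))⁻¹ * mean φ β (Ls n) (μs n)
  rw [volume_U h3.le, ← ENNReal.ofReal_toReal (mean_upper h hβ h3.le (μs n) (ha n)).1,
    ← ENNReal.ofReal_inv_of_pos (by positivity), ← ENNReal.ofReal_mul (by positivity),
    ENNReal.toReal_ofReal ENNReal.toReal_nonneg]
  congr 1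
  simp only [Function.comp_apply, add_zero]
  field_simp

theorem gibbs_of_deriv (hg : Dom φ g) {μ d : ℝ}
    (hd : HasDerivWithinAt q d (Iio μ) μ ∨ HasDerivWithinAt q d (Ioi μ) μ) :
    0 ≤ d ∧ ∃ P : Measure Config,
      IsGibbs φ β (Real.exp μ) P ∧ Invariant P ∧ intensity P = ENNReal.ofReal d := by
  have t0 := tendsto_one_div_add_atTop_nhds_zero_nat (𝕜 := ℝ)
  obtain ⟨a, ha⟩ : ∃ a : ℕ → ℝ, a = fun n : ℕ => 1 / ((n : ℝ) + 1) := ⟨_, rfl⟩
  rw [← ha] at t0
  have a0 : ∀ n, 0 < a n := fun n => by rw [ha]; positivity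
  have t1 : ∀ c : ℝ, Tendsto (fun n => μ + c * a n) atTop (𝓝 μ) := fun c => by
    simpa using (t0.const_mul c).const_add μ
  rcases hd with hd | hd
  · rw [hasDerivWithinAt_iff_tendsto_slope' self_notMem_Iio] at hd
    have t2 : ∀ c : ℝ, c < 0 → Tendsto (fun n => slope q μ (μ + c * a n)) atTop (𝓝 d) :=
      fun c hc => hd.comp (tendsto_nhdsWithin_iff.2 ⟨t1 c, Eventually.of_forall fun n => by
        have := mul_neg_of_neg_of_pos hc (a0 n)
        show μ + c * a n < μ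
        linarith⟩)
    refine gibbs_of_slopes h hβ hq hg a0 (t1 (-1)) ?_ ?_
    · have t3 := ((t2 (-2) (by norm_num)).const_mul 2).sub (t2 (-1) (by norm_num))
      rw [show 2 * d - d = d by ring] at t3
      refine t3.congr fun n => ?_
      have := a0 n
      rw [slope_def_field, slope_def_field, show μ + -1 * a n - a n = μ + -2 * a n by ring,
        add_sub_cancel_left, add_sub_cancel_left]
      field_simp
      ring
    · refine (t2 (-1) (by norm_num)).congr fun n => ?_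
      have := a0 n
      rw [slope_def_field, show μ + -1 * a n + a n = μ by ring, add_sub_cancel_left]
      field_simp
      ring
  · rw [hasDerivWithinAt_iff_tendsto_slope' self_notMem_Ioi] at hd
    have t2 : ∀ c : ℝ, 0 < c → Tendsto (fun n => slope q μ (μ + c * a n)) atTop (𝓝 d) :=
      fun c hc => hd.comp (tendsto_nhdsWithin_iff.2 ⟨t1 c, Eventually.of_forall fun n => by
        have := mul_pos hc (a0 n)
        show μ < μ + c * a n
        linarith⟩)
    refine gibbs_of_slopes h hβ hq hg a0 (t1 1) ?_ ?_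
    · refine (t2 1 one_pos).congr fun n => ?_
      have := a0 n
      rw [slope_def_field, show μ + 1 * a n - a n = μ by ring, add_sub_cancel_left, one_mul]
    · have t3 := ((t2 2 two_pos).const_mul 2).sub (t2 1 one_pos)
      rw [show 2 * d - d = d by ring] at t3
      refine t3.congr fun n => ?_
      have := a0 n
      rw [slope_def_field, slope_def_field, show μ + 1 * a n + a n = μ + 2 * a n by ring,
        add_sub_cancel_left, add_sub_cancel_left]
      field_simp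
      ring

end

/-- At every activity the pressure has one-sided derivatives, and each of them, times the
activity, is the intensity of a translation-invariant Gibbs process. -/
theorem states (h1 : IsPotential φ) (h2 : Stable φ) {C ε R₀ : ℝ} (hε : 0 < ε) (hR : 0 < R₀)
    (h3 : ∀ r, R₀ ≤ r → |φ r| ≤ C * r ^ (-(3 + ε))) (hβ : 0 < β) {Pi : ℝ → ℝ}
    (hPi : ∀ z, 0 < z → HasPressure φ β z (Pi z)) {z : ℝ} (hz : 0 < z) :
    (∃ dl dr, HasDerivWithinAt Pi dl (Iio z) z ∧ HasDerivWithinAt Pi dr (Ioi z) z) ∧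
      ∀ d, HasDerivWithinAt Pi d (Iio z) z ∨ HasDerivWithinAt Pi d (Ioi z) z → 0 ≤ z * d ∧
        ∃ P : Measure Config,
          IsGibbs φ β z P ∧ Invariant P ∧ intensity P = ENNReal.ofReal (z * d) := by
  obtain ⟨B, h⟩ := exists_good h1 h2
  obtain ⟨g, hg⟩ := exists_dom hε hR h3
  have hq : ∀ μ, Tendsto (fun L => lp φ β L μ / L ^ 3) atTop (𝓝 ((Pi ∘ Real.exp) μ)) :=
    fun μ => (hPi _ (Real.exp_pos μ)).2
  obtain ⟨μ, rfl⟩ : ∃ μ, z = Real.exp μ := ⟨Real.log z, (Real.exp_log hz).symm⟩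
  constructor
  · have hc := convex_limit h hβ.le hq
    have hl := hc.hasDerivWithinAt_leftDeriv_of_mem_interior (x := μ) (by simp)
    have hr := hc.hasDerivWithinAt_rightDeriv_of_mem_interior (x := μ) (by simp)
    have hlog := Real.hasDerivAt_log hz.ne'
    have e : ∀ y, 0 < y → Pi y = ((Pi ∘ Real.exp) ∘ Real.log) y := fun y hy => by
      simp [Real.exp_log hy]
    rw [← Real.log_exp μ] at hl hr
    refine ⟨_, _, (((hl.comp _ hlog.hasDerivWithinAt (s := Ioo 0 (Real.exp μ))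
      fun y hy => Real.log_lt_log hy.1 hy.2).congr (fun y hy => e y hy.1)
        (e _ hz)).mono_of_mem_nhdsWithin (Ioo_mem_nhdsLT hz)),
      (hr.comp _ hlog.hasDerivWithinAt fun y hy => Real.log_lt_log hz hy).congr
        (fun y hy => e y (hz.trans hy)) (e _ hz)⟩
  · intro d hd
    rw [mul_comm]
    refine gibbs_of_deriv h hβ.le hq hg (hd.imp (fun hd => ?_) fun hd => ?_)
    · exact hd.comp μ (Real.hasDerivAt_exp μ).hasDerivWithinAt fun y hy => Real.exp_lt_exp.2 hy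
    · exact hd.comp μ (Real.hasDerivAt_exp μ).hasDerivWithinAt fun y hy => Real.exp_lt_exp.2 hy

theorem coexistence_of_kink (h1 : IsPotential φ) (h2 : Stable φ) {C ε R₀ : ℝ} (hε : 0 < ε)
    (hR : 0 < R₀) (h3 : ∀ r, R₀ ≤ r → |φ r| ≤ C * r ^ (-(3 + ε))) (hβ : 0 < β) {Pi : ℝ → ℝ}
    (hPi : ∀ z, 0 < z → HasPressure φ β z (Pi z)) {z : ℝ} (hz : 0 < z)
    (hd : ¬ DifferentiableAt ℝ Pi z) : Coexistence φ β := by
  obtain ⟨⟨dl, dr, hl, hr⟩, h4⟩ := states h1 h2 hε hR h3 hβ hPi hz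
  obtain ⟨l0, P, p1, p2, p3⟩ := h4 dl (Or.inl hl)
  obtain ⟨r0, Q, q1, q2, q3⟩ := h4 dr (Or.inr hr)
  refine ⟨z, hz, P, Q, p1, q1, p2, q2, fun e => hd ?_⟩
  rw [e, q3, ENNReal.ofReal_eq_ofReal_iff r0 l0] at p3
  obtain rfl : dr = dl := mul_left_cancel₀ hz.ne' p3
  have h5 := hl.Iic_of_Iio.union hr
  rw [Iic_union_Ioi, hasDerivWithinAt_univ] at h5
  exact h5.differentiableAt

theorem states_of_jump (h1 : IsPotential φ) (h2 : Stable φ) {C ε R₀ : ℝ} (hε : 0 < ε)
    (hR : 0 < R₀) (h3 : ∀ r, R₀ ≤ r → -(C * r ^ (-(3 + ε))) ≤ φ r ∧ φ r ≤ 0) (hβ : 0 < β)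
    {a b : ℝ} (hj : DensityJump φ β a b) :
    ∃ z : ℝ, 0 < z ∧ ∃ P Q : Measure Config, IsGibbs φ β z P ∧ IsGibbs φ β z Q ∧
      Invariant P ∧ Invariant Q ∧ intensity P ≤ ENNReal.ofReal a ∧
      ENNReal.ofReal b ≤ intensity Q ∧ intensity Q < ⊤ := by
  obtain ⟨Pi, hPi, z, dl, dr, hz, hl, hr, ha, hb⟩ := hj
  obtain ⟨-, h4⟩ := states h1 h2 hε hR (C := C) (fun r hr => by
    rw [abs_of_nonpos (h3 r hr).2]; linarith [(h3 r hr).1]) hβ hPi hz
  obtain ⟨-, P, p1, p2, p3⟩ := h4 dl (Or.inl hl)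
  obtain ⟨-, Q, q1, q2, q3⟩ := h4 dr (Or.inr hr)
  exact ⟨z, hz, P, Q, p1, q1, p2, q2, p3 ▸ ENNReal.ofReal_le_ofReal ha,
    q3 ▸ ENNReal.ofReal_le_ofReal hb, q3 ▸ ENNReal.ofReal_lt_top⟩

/-- The ideal gas has at most one Gibbs process. -/
theorem not_coexistence_zero (β : ℝ) : ¬ Coexistence 0 β := by
  rintro ⟨z, -, P, Q, ⟨p1, -, p2⟩, ⟨q1, -, q2⟩, -, -, h⟩
  refine h (ext_loc fun m A hA hl => le_of_eq ?_)
  have e : ∀ (F : Config → ℝ≥0∞) ω, (∀ ω, F (restr (D m) ω) = F ω) →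
      gibbsSum 0 β z (D m) ω F = gibbsSum 0 β z (D m) emp F := fun F ω hF => by
    rw [gibbsSum_eq, gibbsSum_eq]
    refine tsum_congr fun n => ?_
    simp only [term, wt_zero]
    congr 2
    refine lintegral_congr fun x => ?_
    rw [← hF, ← hF (glue (D m) x emp)]
    congr 2
    refine Config.ext' (Set.ext fun v => ⟨?_, ?_⟩) <;> rintro ⟨h | h, hv⟩
    exacts [⟨Or.inl h, hv⟩, absurd hv h.2, ⟨Or.inl h, hv⟩, absurd hv h.2]
  have e1 : ∀ ω, A.indicator (1 : Config → ℝ≥0∞) (restr (D m) ω) = A.indicator 1 ω := fun ω => by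
    by_cases hω : ω ∈ A
    · rw [indicator_of_mem hω, indicator_of_mem ((hl ω).2 hω)]; rfl
    · rw [indicator_of_notMem hω, indicator_of_notMem fun h3 => hω ((hl ω).1 h3)]
  rw [(p2 _ (measurableSet_D m) (isBounded_D m)).2 A hA,
    (q2 _ (measurableSet_D m) (isBounded_D m)).2 A hA]
  simp only [e _ _ e1, e 1 _ fun _ => rfl, lintegral_const, measure_univ]

end Vale.Agent.N171G
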