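import Vale.Agent.N171G.Defs
import Mathlib.MeasureTheory.Measure.Prokhorov
import Mathlib.MeasureTheory.Measure.Portmanteau
import Mathlib.MeasureTheory.Measure.LevyProkhorovMetric
import Mathlib.MeasureTheory.Constructions.Polish.EmbeddingReal
import Mathlib.Data.Fin.Tuple.Sort

/-! Measurability on the configuration space; a compact code space; setwise local limits. -/

open MeasureTheory Bornology Filter Topology Set
open scoped ENNReal

namespace Vale.Agent.N171G

open Vale.Agent.P171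

theorem Config.ext' {ω ω' : Config} (h : ω.pts = ω'.pts) : ω = ω' := by
  cases ω; cases ω'; congr

/-- The empty configuration. -/
def emp : Config := ⟨∅, fun B _ => by simp⟩

/-- The points of `ω` in `D`. -/
def restr (D : Set E3) (ω : Config) : Config :=
  ⟨ω.pts ∩ D, fun B hB => (ω.fin B hB).subset fun _ h => ⟨h.1.1, h.2⟩⟩

/-- Adding one point. -/
def ins (x : E3) (ω : Config) : Config :=
  ⟨insert x ω.pts, fun B hB => ((ω.fin B hB).insert x).subset (by
    rintro y ⟨h | h, hy⟩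
    exacts [Or.inl h, Or.inr ⟨h, hy⟩])⟩

theorem measurable_ncard {B : Set E3} (hB : MeasurableSet B) (hb : IsBounded B) :
    Measurable fun ω : Config => (ω.pts ∩ B).ncard :=
  measurable_to_countable' fun n =>
    MeasurableSpace.measurableSet_generateFrom ⟨B, n, hB, hb, rfl⟩

theorem measurable_config {X : Type*} [MeasurableSpace X] {f : X → Config}
    (h : ∀ B, MeasurableSet B → IsBounded B → Measurable fun a => ((f a).pts ∩ B).ncard) :
    Measurable f := by
  refine measurable_generateFrom ?_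
  rintro _ ⟨B, n, hB, hb, rfl⟩
  exact h B hB hb (measurableSet_singleton n)

theorem le_ncard_iff {T : Set E3} (hT : T.Finite) (n : ℕ) :
    n ≤ T.ncard ↔ ∃ g : Fin n → E3, Function.Injective g ∧ ∀ j, g j ∈ T := by
  constructor
  · intro h
    have := hT.fintype
    have h1 : Fintype.card (Fin n) ≤ Fintype.card T := by
      rw [Fintype.card_fin, ← Nat.card_eq_fintype_card]; exact h
    obtain ⟨e⟩ := Function.Embedding.nonempty_of_card_le h1
    exact ⟨fun j => e j, Subtype.val_injective.comp e.injective, fun j => (e j).2⟩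
  · rintro ⟨g, hg, h⟩
    have h1 : (range g).ncard = n := by rw [Set.ncard_range_of_injective hg]; simp
    rw [← h1]
    exact Set.ncard_le_ncard (by rintro _ ⟨j, rfl⟩; exact h j) hT

theorem measurable_of_family {X ι : Type*} [MeasurableSpace X] [Countable ι] {f : X → Config}
    (p : ι → X → Prop) (y : ι → X → E3) (hp : ∀ i, MeasurableSet {a | p i a})
    (hy : ∀ i, Measurable (y i)) (hf : ∀ a v, v ∈ (f a).pts ↔ ∃ i, p i a ∧ y i a = v) :
    Measurable f := by
  refine measurable_config fun B hB hb => measurable_of_Ici fun n => ?_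
  have e : (fun a => ((f a).pts ∩ B).ncard) ⁻¹' Ici n = ⋃ e : Fin n → ι,
      (⋂ j, ({a | p (e j) a} ∩ (y (e j)) ⁻¹' B)) ∩
        ⋂ j, ⋂ k, ⋂ _ : j ≠ k, {a | y (e j) a = y (e k) a}ᶜ := by
    ext a
    simp only [mem_preimage, mem_Ici, mem_iUnion, mem_inter_iff, mem_iInter, mem_ofPred_eq,
      mem_compl_iff]
    rw [le_ncard_iff ((f a).fin B hb)]
    constructor
    · rintro ⟨g, hg, h⟩
      choose e he using fun j => (hf a (g j)).1 (h j).1
      refine ⟨e, fun j => ⟨(he j).1, by rw [(he j).2]; exact (h j).2⟩, fun j k hjk h' => hjk ?_⟩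
      apply hg
      rw [← (he j).2, ← (he k).2, h']
    · rintro ⟨e, h1, h2⟩
      refine ⟨fun j => y (e j) a, fun j k hjk => by_contra fun h => h2 j k h hjk, fun j =>
        ⟨(hf a _).2 ⟨e j, (h1 j).1, rfl⟩, (h1 j).2⟩⟩
  rw [e]
  refine MeasurableSet.iUnion fun e => (MeasurableSet.iInter fun j =>
    (hp _).inter (hy _ hB)).inter (MeasurableSet.iInter fun j => MeasurableSet.iInter fun k =>
      MeasurableSet.iInter fun _ => (measurableSet_eq_fun (hy _) (hy _)).compl)

/-- The half-open cube `[-m, m)^3`. -/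
def D (m : ℕ) : Set E3 := {x | ∀ i, -(m : ℝ) ≤ x i ∧ x i < m}

theorem measurable_coord (i : Fin 3) : Measurable fun x : E3 => x i := by fun_prop

theorem measurableSet_D (m : ℕ) : MeasurableSet (D m) := by
  have e : D m = ⋂ i, (fun x : E3 => x i) ⁻¹' Ico (-(m : ℝ)) m := by
    ext x; simp [D]
  rw [e]
  exact MeasurableSet.iInter fun i => measurable_coord i measurableSet_Ico

theorem norm_le_of_coord {x : E3} {c : ℝ} (h : ∀ i, |x i| ≤ c) : ‖x‖ ≤ 3 * c := by
  have h0 : 0 ≤ c := (abs_nonneg _).trans (h 0)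
  rw [EuclideanSpace.norm_eq, Real.sqrt_le_left (by positivity), Fin.sum_univ_three]
  have h1 : ∀ i, ‖x i‖ ^ 2 ≤ c ^ 2 := fun i =>
    pow_le_pow_left₀ (norm_nonneg _) (by rw [Real.norm_eq_abs]; exact h i) 2
  nlinarith [h1 0, h1 1, h1 2, sq_nonneg c]

theorem isBounded_D (m : ℕ) : IsBounded (D m) := by
  refine (Metric.isBounded_closedBall (x := (0 : E3)) (r := 3 * m)).subset fun x hx => ?_
  rw [mem_closedBall_zero_iff]
  exact norm_le_of_coord fun i => abs_le.2 ⟨(hx i).1, (hx i).2.le⟩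

theorem D_mono {m k : ℕ} (h : m ≤ k) : D m ⊆ D k := fun x hx i => by
  have h1 : (m : ℝ) ≤ k := by exact_mod_cast h
  constructor <;> linarith [(hx i).1, (hx i).2]

theorem mem_D_of_norm {x : E3} {m : ℕ} (h : ‖x‖ < m) : x ∈ D m := fun i => by
  have h1 : |x i| ≤ ‖x‖ := by
    have := EuclideanSpace.norm_eq x ▸ PiLp.norm_apply_le x i
    simpa using PiLp.norm_apply_le x i
  have h2 := abs_le.1 h1
  constructor <;> linarith [h2.1, h2.2]

theorem exists_subset_D {B : Set E3} (hB : IsBounded B) : ∃ m, B ⊆ D m := by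
  obtain ⟨r, hr⟩ := hB.subset_closedBall (0 : E3)
  obtain ⟨m, hm⟩ := exists_nat_gt r
  exact ⟨m, fun x hx => mem_D_of_norm ((mem_closedBall_zero_iff.1 (hr hx)).trans_lt hm)⟩

theorem D_zero : D 0 = ∅ := by
  ext x
  simp only [D, mem_ofPred_eq, mem_empty_iff_false, iff_false]
  intro h
  have := h 0
  simp only [Nat.cast_zero, neg_zero] at this
  linarith [this.1, this.2]

/-- The shells. -/
def shell (j : ℕ) : Set E3 := D (j + 1) \ D j

theorem measurableSet_shell (j : ℕ) : MeasurableSet (shell j) :=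
  (measurableSet_D _).diff (measurableSet_D _)

theorem isBounded_shell (j : ℕ) : IsBounded (shell j) := (isBounded_D _).subset sdiff_subset

theorem exists_shell (x : E3) : ∃ j, x ∈ shell j := by
  obtain ⟨m, hm⟩ := exists_subset_D (isBounded_singleton (x := x))
  have h : ∃ m, x ∈ D m := ⟨m, hm rfl⟩
  classical
  have h1 := Nat.find_spec h
  have h0 : Nat.find h ≠ 0 := fun h0 => by rw [h0, D_zero] at h1; exact h1
  obtain ⟨j, hj⟩ := Nat.exists_eq_succ_of_ne_zero h0
  refine ⟨j, by rw [← Nat.succ_eq_add_one, ← hj]; exact h1, Nat.find_min h (by omega)⟩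

theorem mem_D_iff_shell {x : E3} {j m : ℕ} (h : x ∈ shell j) : x ∈ D m ↔ j < m :=
  ⟨fun h1 => by_contra fun h2 => h.2 (D_mono (not_lt.1 h2) h1), fun h1 => D_mono h1 h.1⟩

theorem shell_unique {x : E3} {j k : ℕ} (h : x ∈ shell j) (h' : x ∈ shell k) : j = k := by
  have h1 := (mem_D_iff_shell h).1 h'.1
  have h2 := (mem_D_iff_shell h').1 h.1
  omega

/-- A Borel embedding of three-space into the finite part of `[0, ∞]`. -/
noncomputable def code (x : E3) : ℝ≥0∞ := ENNReal.ofReal (Real.exp (embeddingReal E3 x))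

theorem code_ne_top (x : E3) : code x ≠ ⊤ := ENNReal.ofReal_ne_top

theorem code_injective : Function.Injective code := fun x y h => by
  have h1 := (ENNReal.ofReal_eq_ofReal_iff (Real.exp_pos _).le (Real.exp_pos _).le).1 h
  exact (measurableEmbedding_embeddingReal E3).injective (Real.exp_injective h1)

theorem measurable_code : Measurable code :=
  ((measurableEmbedding_embeddingReal E3).measurable.exp).ennreal_ofReal

theorem code_emb : MeasurableEmbedding code := measurable_code.measurableEmbedding code_injective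

/-- The inverse of `code`. -/
noncomputable def dec : ℝ≥0∞ → E3 := code_emb.invFun

theorem dec_code (x : E3) : dec (code x) = x := code_emb.leftInverse_invFun x

theorem measurable_dec : Measurable dec := code_emb.measurable_invFun

/-- The codes of the points in a shell. -/
noncomputable def codes (j : ℕ) (ω : Config) : Finset ℝ≥0∞ :=
  (ω.fin _ (isBounded_shell j)).toFinset.image code

theorem mem_codes {j : ℕ} {ω : Config} {t : ℝ≥0∞} :
    t ∈ codes j ω ↔ ∃ y, (y ∈ ω.pts ∧ y ∈ shell j) ∧ code y = t := by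
  simp [codes]

/-- The compact code space. -/
abbrev K : Type := ℕ × ℕ → ℝ≥0∞

/-- The list of codes, shell by shell, in increasing order. -/
noncomputable def sec (ω : Config) : K := fun k =>
  if h : k.2 < (codes k.1 ω).card then (codes k.1 ω).orderEmbOfFin rfl ⟨k.2, h⟩ else ⊤

theorem sec_mem {ω : Config} {k : ℕ × ℕ} (h : sec ω k ≠ ⊤) :
    ∃ h' : k.2 < (codes k.1 ω).card, sec ω k = (codes k.1 ω).orderEmbOfFin rfl ⟨k.2, h'⟩ := by
  by_cases h' : k.2 < (codes k.1 ω).card
  · exact ⟨h', dif_pos h'⟩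
  · exact absurd (dif_neg h') h

theorem sec_spec {ω : Config} {k : ℕ × ℕ} (h : sec ω k ≠ ⊤) :
    dec (sec ω k) ∈ ω.pts ∧ dec (sec ω k) ∈ shell k.1 ∧ code (dec (sec ω k)) = sec ω k := by
  obtain ⟨h', e⟩ := sec_mem h
  have h1 : sec ω k ∈ codes k.1 ω := by rw [e]; exact Finset.orderEmbOfFin_mem _ _ _
  obtain ⟨y, hy, e'⟩ := mem_codes.1 h1
  rw [← e', dec_code]
  exact ⟨hy.1, hy.2, rfl⟩

theorem exists_sec {ω : Config} {j : ℕ} {y : E3} (h : y ∈ ω.pts) (h' : y ∈ shell j) :
    ∃ i, sec ω (j, i) = code y := by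
  have h1 : code y ∈ range ((codes j ω).orderEmbOfFin rfl) := by
    rw [Finset.range_orderEmbOfFin]; exact mem_codes.2 ⟨y, ⟨h, h'⟩, rfl⟩
  obtain ⟨i, hi⟩ := h1
  exact ⟨i, by rw [← hi]; exact dif_pos i.2⟩

theorem sec_le_iff (ω : Config) (k : ℕ × ℕ) {a : ℝ≥0∞} (ha : a ≠ ⊤) :
    sec ω k ≤ a ↔ k.2 < (ω.pts ∩ (shell k.1 ∩ code ⁻¹' Iic a)).ncard := by
  classical
  have e : (ω.pts ∩ (shell k.1 ∩ code ⁻¹' Iic a)).ncard =
      (Finset.univ.filter fun i => (codes k.1 ω).orderEmbOfFin rfl i ≤ a).card := by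
    rw [← Set.ncard_image_of_injective _ code_injective, ← Set.ncard_coe_finset,
      ← Set.ncard_image_of_injective _ ((codes k.1 ω).orderEmbOfFin rfl).injective]
    congr 1
    ext t
    constructor
    · rintro ⟨y, hy, rfl⟩
      have h1 : code y ∈ range ((codes k.1 ω).orderEmbOfFin rfl) := by
        rw [Finset.range_orderEmbOfFin]; exact mem_codes.2 ⟨y, ⟨hy.1, hy.2.1⟩, rfl⟩
      obtain ⟨i, hi⟩ := h1
      refine ⟨i, ?_, hi⟩
      simp only [Finset.coe_filter, Finset.mem_univ, true_and, mem_ofPred_eq]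
      rw [hi]; exact hy.2.2
    · rintro ⟨i, hi, rfl⟩
      simp only [Finset.coe_filter, Finset.mem_univ, true_and, mem_ofPred_eq] at hi
      obtain ⟨y, hy, e'⟩ := mem_codes.1 (Finset.orderEmbOfFin_mem (codes k.1 ω) rfl i)
      exact ⟨y, ⟨hy.1, hy.2, by rw [mem_preimage, e']; exact hi⟩, e'⟩
  rw [e]
  by_cases h : k.2 < (codes k.1 ω).card
  · have e' : sec ω k = (codes k.1 ω).orderEmbOfFin rfl ⟨k.2, h⟩ := dif_pos h
    rw [e']
    exact (Tuple.lt_card_le_iff_apply_le_of_monotone (j := ⟨k.2, h⟩)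
      ((codes k.1 ω).orderEmbOfFin rfl).monotone).symm
  · have e' : sec ω k = ⊤ := dif_neg h
    rw [e', top_le_iff]
    refine iff_of_false ha fun h1 => h (h1.trans_le ?_)
    simpa using Finset.card_filter_le Finset.univ
      (fun i => (codes k.1 ω).orderEmbOfFin rfl i ≤ a)

theorem measurable_sec : Measurable sec := by
  refine measurable_pi_lambda _ fun k => measurable_of_Iic fun a => ?_
  by_cases ha : a = ⊤
  · rw [ha]; simp
  · have e : (fun ω => sec ω k) ⁻¹' Iic a =
        (fun ω : Config => (ω.pts ∩ (shell k.1 ∩ code ⁻¹' Iic a)).ncard) ⁻¹' Ioi k.2 := by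
      ext ω; exact sec_le_iff ω k ha
    rw [e]
    exact measurable_ncard ((measurableSet_shell _).inter (measurable_code measurableSet_Iic))
      ((isBounded_shell _).subset inter_subset_left) measurableSet_Ioi

theorem mem_iff_sec (ω : Config) (v : E3) :
    v ∈ ω.pts ↔ ∃ k, sec ω k ≠ ⊤ ∧ dec (sec ω k) = v := by
  constructor
  · intro h
    obtain ⟨j, hj⟩ := exists_shell v
    obtain ⟨i, hi⟩ := exists_sec h hj
    exact ⟨(j, i), by rw [hi]; exact code_ne_top _, by rw [hi, dec_code]⟩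
  · rintro ⟨k, hk, rfl⟩
    exact (sec_spec hk).1

theorem sec_inj {ω : Config} {k l : ℕ × ℕ} (hk : sec ω k ≠ ⊤) (hl : sec ω l ≠ ⊤)
    (h : dec (sec ω k) = dec (sec ω l)) : k = l := by
  have h1 : k.1 = l.1 := shell_unique (sec_spec hk).2.1 (h ▸ (sec_spec hl).2.1)
  have h2 : sec ω k = sec ω l := by rw [← (sec_spec hk).2.2, h, (sec_spec hl).2.2]
  obtain ⟨j, i⟩ := k
  obtain ⟨j', i'⟩ := l
  obtain rfl : j = j' := h1
  obtain ⟨a, ha⟩ := sec_mem hk
  obtain ⟨b, hb⟩ := sec_mem hl
  rw [ha, hb] at h2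
  have h3 := ((codes j ω).orderEmbOfFin rfl).injective h2
  have h4 : i = i' := congrArg Fin.val h3
  rw [h4]

theorem tsum_pts {α : Type*} [AddCommMonoid α] [TopologicalSpace α] (ω : Config) (g : E3 → α) :
    ∑' v : ω.pts, g v = ∑' k, {k | sec ω k ≠ ⊤}.indicator (fun k => g (dec (sec ω k))) k := by
  rw [← tsum_subtype]
  refine (Equiv.tsum_eq (Equiv.ofBijective
    (fun k : {k | sec ω k ≠ ⊤} => (⟨dec (sec ω k), (sec_spec k.2).1⟩ : ω.pts)) ⟨?_, ?_⟩)
    (fun v : ω.pts => g v)).symm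
  · intro k l h
    exact Subtype.ext (sec_inj k.2 l.2 (congrArg Subtype.val h))
  · intro v
    obtain ⟨k, hk, e⟩ := (mem_iff_sec ω v).1 v.2
    exact ⟨⟨k, hk⟩, Subtype.ext e⟩

section
variable {X : Type*} [MeasurableSpace X] {c : X → Config}

theorem measurableSet_sec (hc : Measurable c) (k : ℕ × ℕ) :
    MeasurableSet {a | sec (c a) k ≠ ⊤} :=
  ((measurable_pi_apply k).comp (measurable_sec.comp hc)) (measurableSet_singleton ⊤).compl

theorem measurable_decsec (hc : Measurable c) (k : ℕ × ℕ) :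
    Measurable fun a => dec (sec (c a) k) :=
  measurable_dec.comp ((measurable_pi_apply k).comp (measurable_sec.comp hc))

theorem measurable_tsum_real (hc : Measurable c) {g : X → E3 → ℝ}
    (hg : Measurable fun q : X × E3 => g q.1 q.2) :
    Measurable fun a => ∑' v : (c a).pts, g a v := by
  simp only [tsum_pts]
  refine Measurable.tsum fun k => ?_
  exact Measurable.indicator (f := fun a => g a (dec (sec (c a) k)))
    (hg.comp (measurable_id.prodMk (measurable_decsec hc k))) (measurableSet_sec hc k)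

theorem measurable_tsum_enn (hc : Measurable c) {g : X → E3 → ℝ≥0∞}
    (hg : Measurable fun q : X × E3 => g q.1 q.2) :
    Measurable fun a => ∑' v : (c a).pts, g a v := by
  simp only [tsum_pts]
  refine Measurable.tsum fun k => ?_
  exact Measurable.indicator (f := fun a => g a (dec (sec (c a) k)))
    (hg.comp (measurable_id.prodMk (measurable_decsec hc k))) (measurableSet_sec hc k)

theorem Measurable.shift' {u : X → E3} (hu : Measurable u) (hc : Measurable c) :
    Measurable fun a => shift (u a) (c a) := by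
  refine measurable_of_family (fun k a => sec (c a) k ≠ ⊤) (fun k a => dec (sec (c a) k) + u a)
    (measurableSet_sec hc) (fun k => (measurable_decsec hc k).add hu) fun a v => ?_
  constructor
  · rintro ⟨y, hy, rfl⟩
    obtain ⟨k, hk, e⟩ := (mem_iff_sec _ _).1 hy
    exact ⟨k, hk, by rw [e]⟩
  · rintro ⟨k, hk, rfl⟩
    exact ⟨_, (sec_spec hk).1, rfl⟩

theorem Measurable.restr' {B : Set E3} (hB : MeasurableSet B) (hc : Measurable c) :
    Measurable fun a => restr B (c a) := by
  refine measurable_of_family (fun k a => sec (c a) k ≠ ⊤ ∧ dec (sec (c a) k) ∈ B)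
    (fun k a => dec (sec (c a) k))
    (fun k => (measurableSet_sec hc k).inter (measurable_decsec hc k hB))
    (measurable_decsec hc) fun a v => ?_
  constructor
  · rintro ⟨hy, hv⟩
    obtain ⟨k, hk, e⟩ := (mem_iff_sec _ _).1 hy
    exact ⟨k, ⟨hk, e ▸ hv⟩, e⟩
  · rintro ⟨k, hk, rfl⟩
    exact ⟨(sec_spec hk.1).1, hk.2⟩

theorem Measurable.ins' {u : X → E3} (hu : Measurable u) (hc : Measurable c) :
    Measurable fun a => ins (u a) (c a) := by
  refine measurable_of_family (ι := Option (ℕ × ℕ))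
    (fun k a => k.elim True fun k => sec (c a) k ≠ ⊤)
    (fun k a => k.elim (u a) fun k => dec (sec (c a) k)) ?_ ?_ fun a v => ?_
  · rintro (_ | k)
    exacts [by simp, measurableSet_sec hc k]
  · rintro (_ | k)
    exacts [hu, measurable_decsec hc k]
  · constructor
    · rintro (h | h)
      · exact ⟨none, trivial, h.symm⟩
      · obtain ⟨k, hk, e⟩ := (mem_iff_sec _ _).1 h
        exact ⟨some k, hk, e⟩
    · rintro ⟨_ | k, hk, rfl⟩
      exacts [Or.inl rfl, Or.inr (sec_spec hk).1]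

theorem Measurable.glue' {Λ : Set E3} (hΛ : MeasurableSet Λ) {n : ℕ} {x : X → Fin n → E3}
    (hx : Measurable x) (hc : Measurable c) : Measurable fun a => glue Λ (x a) (c a) := by
  refine measurable_of_family (ι := Fin n ⊕ (ℕ × ℕ))
    (fun k a => k.elim (fun _ => True) fun k => sec (c a) k ≠ ⊤ ∧ dec (sec (c a) k) ∈ Λᶜ)
    (fun k a => k.elim (x a) fun k => dec (sec (c a) k)) ?_ ?_ fun a v => ?_
  · rintro (_ | k)
    exacts [by simp, (measurableSet_sec hc k).inter (measurable_decsec hc k hΛ.compl)]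
  · rintro (i | k)
    exacts [(measurable_pi_apply i).comp hx, measurable_decsec hc k]
  · constructor
    · rintro (⟨i, h⟩ | h)
      · exact ⟨Sum.inl i, trivial, h⟩
      · obtain ⟨k, hk, e⟩ := (mem_iff_sec _ _).1 h.1
        exact ⟨Sum.inr k, ⟨hk, e ▸ h.2⟩, e⟩
    · rintro ⟨i | k, hk, rfl⟩
      exacts [Or.inl ⟨i, rfl⟩, Or.inr ⟨(sec_spec hk.1).1, hk.2⟩]

end

theorem measurable_restr {B : Set E3} (hB : MeasurableSet B) : Measurable (restr B) :=
  Measurable.restr' hB measurable_id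

theorem measurable_shift (v : E3) : Measurable (shift v) :=
  Measurable.shift' measurable_const measurable_id

/-- The configuration read from a code. -/
noncomputable def ret (κ : K) : Config where
  pts := {y | ∃ k : ℕ × ℕ, (∃ n, ∀ i, n ≤ i → κ (k.1, i) = ⊤) ∧ y ∈ shell k.1 ∧ κ k = code y}
  fin B hB := by
    obtain ⟨m, hm⟩ := exists_subset_D hB
    have h : ∀ j, {y | ∃ i, (∃ n, ∀ i, n ≤ i → κ (j, i) = ⊤) ∧ κ (j, i) = code y}.Finite := by
      intro j
      by_cases h : ∃ n, ∀ i, n ≤ i → κ (j, i) = ⊤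
      · obtain ⟨n, hn⟩ := h
        refine ((Set.finite_lt_nat n).image fun i => dec (κ (j, i))).subset ?_
        rintro y ⟨i, -, hi⟩
        refine ⟨i, by_contra fun h => code_ne_top y (hi ▸ hn i (not_lt.1 h)), ?_⟩
        simp only [hi, dec_code]
      · refine Set.finite_empty.subset ?_
        rintro y ⟨i, hi, -⟩
        exact h hi
    refine ((Set.finite_lt_nat m).biUnion fun j _ => h j).subset ?_
    rintro y ⟨⟨k, h1, h2, h3⟩, hy⟩
    exact mem_biUnion (x := k.1) ((mem_D_iff_shell h2).1 (hm hy)) ⟨k.2, h1, h3⟩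

theorem ret_sec (ω : Config) : ret (sec ω) = ω := by
  refine Config.ext' (Set.ext fun y => ⟨?_, fun h => ?_⟩)
  · rintro ⟨k, -, -, h⟩
    have h1 : sec ω k ≠ ⊤ := by rw [h]; exact code_ne_top _
    have h2 := (sec_spec h1).1
    rwa [h, dec_code] at h2
  · obtain ⟨j, hj⟩ := exists_shell y
    obtain ⟨i, hi⟩ := exists_sec h hj
    exact ⟨(j, i), ⟨(codes j ω).card, fun i hi => dif_neg (not_lt.2 hi)⟩, hj, hi⟩

theorem measurable_ret : Measurable ret := by
  refine measurable_of_family (ι := ℕ × ℕ)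
    (fun k κ => (∃ n, ∀ i, n ≤ i → κ (k.1, i) = ⊤) ∧ dec (κ k) ∈ shell k.1 ∧ κ k ∈ range code)
    (fun k κ => dec (κ k)) (fun k => ?_) (fun k => measurable_dec.comp (measurable_pi_apply k))
    fun κ v => ?_
  · refine MeasurableSet.inter (s₁ := {κ : K | ∃ n, ∀ i, n ≤ i → κ (k.1, i) = ⊤}) ?_
      (MeasurableSet.inter (s₁ := (fun κ : K => dec (κ k)) ⁻¹' shell k.1)
        (s₂ := (fun κ : K => κ k) ⁻¹' range code)
        ((measurable_dec.comp (measurable_pi_apply k)) (measurableSet_shell k.1))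
        ((measurable_pi_apply k) code_emb.measurableSet_range))
    have e : {κ : K | ∃ n, ∀ i, n ≤ i → κ (k.1, i) = ⊤} =
        ⋃ n, ⋂ i, ⋂ _ : n ≤ i, (fun κ : K => κ (k.1, i)) ⁻¹' {⊤} := by
      ext κ; simp
    rw [e]
    exact MeasurableSet.iUnion fun n => MeasurableSet.iInter fun i => MeasurableSet.iInter
      fun _ => measurable_pi_apply _ (measurableSet_singleton _)
  · constructor
    · rintro ⟨k, h1, h2, h3⟩
      exact ⟨k, ⟨h1, by rw [h3, dec_code]; exact h2, ⟨v, h3.symm⟩⟩, by rw [h3, dec_code]⟩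
    · rintro ⟨k, ⟨h1, h2, y, h3⟩, rfl⟩
      exact ⟨k, h1, h2, by rw [← h3, dec_code]⟩

/-- Forget the shells outside `D m`. -/
noncomputable def trunc (m : ℕ) (κ : K) : K := fun k => if k.1 < m then κ k else ⊤

theorem continuous_trunc (m : ℕ) : Continuous (trunc m) := by
  refine continuous_pi fun k => ?_
  unfold trunc
  split_ifs
  exacts [continuous_apply k, continuous_const]

theorem ret_trunc (m : ℕ) (κ : K) : ret (trunc m κ) = restr (D m) (ret κ) := by
  refine Config.ext' (Set.ext fun y => ⟨?_, ?_⟩)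
  · rintro ⟨k, ⟨n, h1⟩, h2, h3⟩
    have hk : k.1 < m := by_contra fun h => code_ne_top y (h3.symm.trans (if_neg h))
    refine ⟨⟨k, ⟨n, fun i hi => ?_⟩, h2, (if_pos hk).symm.trans h3⟩, (mem_D_iff_shell h2).2 hk⟩
    exact (if_pos hk).symm.trans (h1 i hi)
  · rintro ⟨⟨k, ⟨n, h1⟩, h2, h3⟩, hy⟩
    have hk := (mem_D_iff_shell h2).1 hy
    exact ⟨k, ⟨n, fun i hi => (if_pos hk).trans (h1 i hi)⟩, h2, (if_pos hk).trans h3⟩

theorem trunc_sec_restr (m : ℕ) (ω : Config) :
    trunc m (sec (restr (D m) ω)) = trunc m (sec ω) := by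
  funext k
  unfold trunc
  split_ifs with hk
  · have e : codes k.1 (restr (D m) ω) = codes k.1 ω := by
      ext t
      rw [mem_codes, mem_codes]
      constructor
      · rintro ⟨y, hy, e⟩; exact ⟨y, ⟨hy.1.1, hy.2⟩, e⟩
      · rintro ⟨y, hy, e⟩; exact ⟨y, ⟨⟨hy.1, (mem_D_iff_shell hy.2).2 hk⟩, hy.2⟩, e⟩
    have g : ∀ T : Finset ℝ≥0∞, T = codes k.1 ω →
        (if h : k.2 < T.card then T.orderEmbOfFin rfl ⟨k.2, h⟩ else ⊤) = sec ω k := by
      rintro T rfl; rfl
    exact g _ e
  · rfl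

/-- The event `A` depends only on the points in `B`. -/
def Loc (B : Set E3) (A : Set Config) : Prop := ∀ ω, restr B ω ∈ A ↔ ω ∈ A

theorem compactness (μ : ℕ → Measure Config) [∀ n, IsProbabilityMeasure (μ n)]
    (h : ∀ m, ∃ ν : Measure Config, IsFiniteMeasure ν ∧ ∀ ε : ℝ≥0∞, 0 < ε → ∃ δ : ℝ≥0∞, 0 < δ ∧
      ∀ᶠ n in atTop, ∀ A, MeasurableSet A → Loc (D m) A → ν A < δ → μ n A ≤ ε) :
    ∃ P : Measure Config, IsProbabilityMeasure P ∧ ∃ s : ℕ → ℕ, StrictMono s ∧
      ∀ m A, MeasurableSet A → Loc (D m) A → Tendsto (fun n => μ (s n) A) atTop (𝓝 (P A)) := by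
  let Q : ℕ → ProbabilityMeasure K := fun n =>
    ⟨(μ n).map sec, Measure.isProbabilityMeasure_map measurable_sec.aemeasurable⟩
  obtain ⟨q, s, hs, hq⟩ := CompactSpace.tendsto_subseq Q
  have hP : IsProbabilityMeasure ((q : Measure K).map ret) :=
    Measure.isProbabilityMeasure_map measurable_ret.aemeasurable
  refine ⟨(q : Measure K).map ret, hP, s, hs, fun m A hA hl => ?_⟩
  obtain ⟨ν, hν, h⟩ := h m
  have hT : Measurable fun ω => trunc m (sec ω) :=
    (continuous_trunc m).measurable.comp measurable_sec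
  have hA' : MeasurableSet (ret ⁻¹' A) := measurable_ret hA
  have hTA : trunc m ⁻¹' (ret ⁻¹' A) = ret ⁻¹' A := by
    ext κ; simp only [mem_preimage, ret_trunc]; exact hl _
  have hPA : ((q : Measure K).map ret) A = (q : Measure K) (ret ⁻¹' A) :=
    Measure.map_apply measurable_ret hA
  have hQ : ∀ n S, MeasurableSet S → (Q n : Measure K) (trunc m ⁻¹' S) =
      μ n ((fun ω => trunc m (sec ω)) ⁻¹' S) := fun n S hS =>
    Measure.map_apply measurable_sec ((continuous_trunc m).measurable hS)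
  have hAe : (fun ω => trunc m (sec ω)) ⁻¹' (ret ⁻¹' A) = A := by
    ext ω; simp only [mem_preimage, ret_trunc, ret_sec]; exact hl _
  rw [ENNReal.tendsto_nhds (measure_ne_top _ _)]
  intro ε hε
  have hε2 : 0 < ε / 2 := ENNReal.half_pos hε.ne'
  obtain ⟨δ, hδ, h⟩ := h (ε / 2) hε2
  have : IsFiniteMeasure (ν.map fun ω => trunc m (sec ω)) := Measure.isFiniteMeasure_map _ _
  obtain ⟨G, hG1, hG2, -, hG3⟩ := hA'.exists_isOpen_sdiff_lt
    (μ := ν.map fun ω => trunc m (sec ω)) (measure_ne_top _ _) hδ.ne'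
  obtain ⟨F, hF1, hF2, hF3⟩ := hA'.exists_isClosed_sdiff_lt
    (μ := ν.map fun ω => trunc m (sec ω)) (measure_ne_top _ _) hδ.ne'
  have key : ∀ᶠ n in atTop, ∀ S, MeasurableSet S → (ν.map fun ω => trunc m (sec ω)) S < δ →
      μ (s n) ((fun ω => trunc m (sec ω)) ⁻¹' S) ≤ ε / 2 := by
    filter_upwards [hs.tendsto_atTop.eventually h] with n hn S hS hS'
    refine hn _ (hT hS) (fun ω => ?_) (by rwa [Measure.map_apply hT hS] at hS')
    simp only [mem_preimage, trunc_sec_restr]
  have hup := ProbabilityMeasure.limsup_measure_closed_le_of_tendsto hq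
    (hF2.preimage (continuous_trunc m))
  have hlo := ProbabilityMeasure.le_liminf_measure_open_of_tendsto hq
    (hG2.preimage (continuous_trunc m))
  have hup' : (q : Measure K) (trunc m ⁻¹' F) < ((q : Measure K).map ret) A + ε / 2 := by
    refine lt_of_le_of_lt ?_ (ENNReal.lt_add_right (measure_ne_top _ _) hε2.ne')
    rw [hPA, ← hTA]; exact measure_mono (preimage_mono hF1)
  have hlo' : ((q : Measure K).map ret) A ≤ (q : Measure K) (trunc m ⁻¹' G) := by
    rw [hPA, ← hTA]; exact measure_mono (preimage_mono hG1)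
  have e1 := eventually_lt_of_limsup_lt (hup.trans_lt hup')
  have e2 : ∀ᶠ n in atTop, ((q : Measure K).map ret) A ≤
      (Q (s n) : Measure K) (trunc m ⁻¹' G) + ε / 2 := by
    by_cases h0 : ((q : Measure K).map ret) A = 0
    · exact Eventually.of_forall fun n => by rw [h0]; exact zero_le
    · have h1 : ((q : Measure K).map ret) A - ε / 2 < ((q : Measure K).map ret) A :=
        ENNReal.sub_lt_self (measure_ne_top _ _) h0 hε2.ne'
      filter_upwards [eventually_lt_of_lt_liminf (h1.trans_le (hlo'.trans hlo))] with n hn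
      exact tsub_le_iff_right.1 hn.le
  filter_upwards [key, e1, e2] with n hn h1 h2
  have h1' : (Q (s n) : Measure K) (trunc m ⁻¹' F) < ((q : Measure K).map ret) A + ε / 2 := h1
  rw [hQ _ _ hF2.measurableSet] at h1'
  rw [hQ _ _ hG2.measurableSet] at h2
  constructor
  · rw [tsub_le_iff_right]
    have h3 := hn _ (hG2.measurableSet.diff hA') hG3
    have h4 : μ (s n) ((fun ω => trunc m (sec ω)) ⁻¹' G) ≤ μ (s n) A +
        μ (s n) ((fun ω => trunc m (sec ω)) ⁻¹' (G \ ret ⁻¹' A)) := by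
      refine le_trans (measure_mono fun ω hω => ?_) (measure_union_le _ _)
      by_cases h5 : ω ∈ A
      · exact Or.inl h5
      · exact Or.inr ⟨hω, fun h6 => h5 (hAe ▸ h6)⟩
    calc _ ≤ _ := h2
      _ ≤ μ (s n) A + ε / 2 + ε / 2 := by gcongr; exact h4.trans (by gcongr)
      _ = _ := by rw [add_assoc, ENNReal.add_halves]
  · have h3 := hn _ (hA'.diff hF2.measurableSet) hF3
    have h4 : μ (s n) A ≤ μ (s n) ((fun ω => trunc m (sec ω)) ⁻¹' F) +
        μ (s n) ((fun ω => trunc m (sec ω)) ⁻¹' (ret ⁻¹' A \ F)) := by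
      refine le_trans (measure_mono fun ω hω => ?_) (measure_union_le _ _)
      by_cases h5 : trunc m (sec ω) ∈ F
      · exact Or.inl h5
      · exact Or.inr ⟨by rw [← hAe] at hω; exact hω, h5⟩
    calc _ ≤ _ := h4
      _ ≤ ((q : Measure K).map ret) A + ε / 2 + ε / 2 := add_le_add h1'.le h3
      _ = _ := by rw [add_assoc, ENNReal.add_halves]

/-- Fatou's lemma for setwise local convergence. -/
theorem lintegral_le_liminf_loc {μ : ℕ → Measure Config} {P : Measure Config} {m : ℕ}
    (h : ∀ A, MeasurableSet A → Loc (D m) A → Tendsto (fun n => μ n A) atTop (𝓝 (P A)))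
    {f : Config → ℝ≥0∞} (hf : Measurable f) (hl : ∀ ω, f (restr (D m) ω) = f ω) :
    ∫⁻ ω, f ω ∂P ≤ liminf (fun n => ∫⁻ ω, f ω ∂μ n) atTop := by
  rw [lintegral_eq_iSup_eapprox_lintegral hf]
  refine iSup_le fun k => ?_
  have h1 : Tendsto (fun n => (SimpleFunc.eapprox f k).lintegral (μ n)) atTop
      (𝓝 ((SimpleFunc.eapprox f k).lintegral P)) := by
    unfold SimpleFunc.lintegral
    refine tendsto_finsetSum _ fun x hx => ?_
    refine ENNReal.Tendsto.const_mul (h _ (SimpleFunc.measurableSet_preimage _ _) fun ω => ?_)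
      (Or.inr ?_)
    · have e := SimpleFunc.eapprox_comp (f := f) (g := restr (D m)) (n := k) hf
        (measurable_restr (measurableSet_D m))
      have e' : f ∘ restr (D m) = f := funext hl
      rw [e'] at e
      simp only [mem_preimage]
      rw [congrFun e ω]; rfl
    · obtain ⟨ω, rfl⟩ := SimpleFunc.mem_range.1 hx
      exact (SimpleFunc.eapprox_lt_top _ _ _).ne
  rw [← h1.liminf_eq]
  refine liminf_le_liminf (Eventually.of_forall fun n => ?_)
  rw [lintegral_eq_iSup_eapprox_lintegral hf]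
  exact le_iSup (fun k => (SimpleFunc.eapprox f k).lintegral (μ n)) k

theorem restr_restr {B B' : Set E3} (h : B ⊆ B') (ω : Config) :
    restr B (restr B' ω) = restr B ω :=
  Config.ext' (Set.ext fun _ => ⟨fun hy => ⟨hy.1.1, hy.2⟩, fun hy => ⟨⟨hy.1, h hy.2⟩, hy.2⟩⟩)

theorem Loc.mono {B B' : Set E3} {A : Set Config} (h : Loc B A) (hB : B ⊆ B') : Loc B' A :=
  fun ω => by rw [← h, restr_restr hB, h]

theorem ext_loc {P Q : Measure Config} [IsProbabilityMeasure P] [IsProbabilityMeasure Q]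
    (h : ∀ m A, MeasurableSet A → Loc (D m) A → Q A ≤ P A) : P = Q := by
  refine ext_of_generate_finite {A | MeasurableSet A ∧ ∃ m, Loc (D m) A} ?_ ?_ ?_ (by simp)
  · refine le_antisymm (MeasurableSpace.generateFrom_le ?_)
      (MeasurableSpace.generateFrom_le fun A hA => hA.1)
    rintro _ ⟨B, n, hB, hb, rfl⟩
    obtain ⟨m, hm⟩ := exists_subset_D hb
    refine MeasurableSpace.measurableSet_generateFrom
      ⟨measurable_ncard hB hb (measurableSet_singleton n), m, fun ω => ?_⟩
    have e : (restr (D m) ω).pts ∩ B = ω.pts ∩ B :=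
      Set.ext fun _ => ⟨fun hy => ⟨hy.1.1, hy.2⟩, fun hy => ⟨⟨hy.1, hm hy.2⟩, hy.2⟩⟩
    simp only [mem_ofPred_eq, e]
  · rintro A ⟨hA, m, hm⟩ A' ⟨hA', m', hm'⟩ -
    refine ⟨hA.inter hA', max m m', fun ω => ?_⟩
    rw [mem_inter_iff, mem_inter_iff, hm.mono (D_mono (le_max_left _ _)),
      hm'.mono (D_mono (le_max_right _ _))]
  · rintro A ⟨hA, m, hm⟩
    refine le_antisymm ?_ (h m A hA hm)
    have h1 := h m Aᶜ hA.compl fun ω => not_congr (hm ω)
    rw [prob_compl_eq_one_sub hA, prob_compl_eq_one_sub hA] at h1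
    exact (ENNReal.sub_le_sub_iff_left prob_le_one ENNReal.one_ne_top).1 h1

end Vale.Agent.N171G
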