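import Vale.Agent.N171G.Limit

/-! The infinite-volume limit of the averaged measures is an invariant Gibbs process. -/

open MeasureTheory Bornology Filter Topology Set
open scoped ENNReal

namespace Vale.Agent.N171G

open Vale.Agent.P171

variable {φ : ℝ → ℝ} {β z B : ℝ} {Λ : Set E3} {g : E3 → ℝ} {zs Ls : ℕ → ℝ} {ρ : ℝ≥0∞}

/-- A sequence of activities and volumes along which the density converges. -/
structure Seq (φ : ℝ → ℝ) (β z B : ℝ) (g : E3 → ℝ) (zs Ls : ℕ → ℝ) (ρ : ℝ≥0∞) : Prop where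
  good : Good φ B
  dom : Dom φ g
  hβ : 0 ≤ β
  hz : 0 < z
  z0 : ∀ n, 0 ≤ zs n
  L0 : ∀ n, 0 ≤ Ls n
  tz : Tendsto zs atTop (𝓝 z)
  tL : Tendsto Ls atTop atTop
  tρ : Tendsto (fun n => rho φ β (zs n) (Ls n)) atTop (𝓝 ρ)
  fin : ρ ≠ ⊤

theorem Seq.sub (h : Seq φ β z B g zs Ls ρ) {s : ℕ → ℕ} (hs : StrictMono s) :
    Seq φ β z B g (zs ∘ s) (Ls ∘ s) ρ :=
  ⟨h.good, h.dom, h.hβ, h.hz, fun _ => h.z0 _, fun _ => h.L0 _, h.tz.comp hs.tendsto_atTop,
    h.tL.comp hs.tendsto_atTop, h.tρ.comp hs.tendsto_atTop, h.fin⟩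

theorem Seq.prob (h : Seq φ β z B g zs Ls ρ) (n : ℕ) :
    IsProbabilityMeasure (avg φ β (zs n) (Ls n)) :=
  prob_avg h.good h.hβ (h.z0 n) (h.L0 n)

theorem exists_t (C : ℝ) {ε : ℝ≥0∞} (hε : 0 < ε) :
    ∃ t : ℝ, 0 ≤ t ∧ ∀ x : ℝ≥0∞, ENNReal.ofReal t * x ≤ ENNReal.ofReal C → x ≤ ε := by
  obtain ⟨n, hn⟩ := ENNReal.exists_nat_mul_gt hε.ne' (ENNReal.ofReal_ne_top (r := C))
  refine ⟨n, Nat.cast_nonneg n, fun x hx => by_contra fun h => ?_⟩
  rw [ENNReal.ofReal_natCast] at hx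
  exact absurd (hx.trans_lt hn) (not_lt.2 (mul_le_mul_right (not_le.1 h).le _))

theorem Seq.bound (h : Seq φ β z B g zs Ls ρ) {m : ℕ} (hm : 1 ≤ m) : ∃ ζ C : ℝ, 0 ≤ ζ ∧
    ∀ᶠ n in atTop, ∀ (f : Config → ℝ) (W : Config → ℝ≥0∞), Measurable f → (∀ ω, 0 ≤ f ω) →
      (∀ ω, f (restr (D m) ω) = f ω) → Measurable W →
      (∀ ω, ENNReal.ofReal (Real.exp (f ω)) ≤ 1 + W ω) → gibbsSum 0 1 ζ (D m) emp W ≤ 1 →
      ∫⁻ ω, ENNReal.ofReal (f ω) ∂avg φ β (zs n) (Ls n) ≤ ENNReal.ofReal C := by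
  have hz := h.hz
  obtain ⟨ζ, hζ⟩ : ∃ ζ, ζ = (z + 1) * Real.exp (β * B) := ⟨_, rfl⟩
  have hζ0 : 0 ≤ ζ := by rw [hζ]; positivity
  refine ⟨ζ, 64 * (ζ * (volume (D m)).toReal + 1) + ζ * (2 * m) ^ 3, hζ0, ?_⟩
  filter_upwards [h.tz.eventually (eventually_le_nhds (lt_add_one z)),
    h.tL.eventually_ge_atTop (2 * m)] with n h1 h2 f W hf h0 hl hW hfW hP
  refine avg_bound h.good h.hβ (h.z0 n) (h.L0 n) (by rw [hζ]; gcongr) (by positivity) hm h2 hf
    h0 hl ?_
  refine (gibbsSum_mono (F' := fun ω => (1 : Config → ℝ≥0∞) ω + W ω) (measurableSet_D m)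
    fun _ _ _ _ => hfW _).trans ?_
  rw [gibbsSum_add ms_zero (measurableSet_D m) measurable_one hW,
    poisson_one hζ0 (volume_ne_top subset_rfl)]
  refine (add_le_add_right hP _).trans ?_
  rw [← ENNReal.ofReal_one, ← ENNReal.ofReal_add (Real.exp_pos _).le zero_le_one]
  refine ENNReal.ofReal_le_ofReal ?_
  have h3 : 1 ≤ Real.exp (ζ * (volume (D m)).toReal) := Real.one_le_exp (by positivity)
  rw [Real.exp_add]
  nlinarith [Real.add_one_le_exp 1]

theorem Seq.exists_limit (h : Seq φ β z B g zs Ls ρ) :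
    ∃ P : Measure Config, IsProbabilityMeasure P ∧ ∃ s : ℕ → ℕ, StrictMono s ∧
      ∀ m A, MeasurableSet A → Loc (D m) A →
        Tendsto (fun n => avg φ β (zs (s n)) (Ls (s n)) A) atTop (𝓝 (P A)) := by
  have := h.prob
  refine compactness (fun n => avg φ β (zs n) (Ls n)) fun m => ?_
  obtain ⟨ζ, C, hζ, hC⟩ := h.bound (m := m + 1) (by omega)
  have hD := measurableSet_D (m + 1)
  refine ⟨gm 0 1 ζ (D (m + 1)) emp, ⟨?_⟩, fun ε hε => ?_⟩
  · rw [gm_univ ms_zero hD, poisson_one hζ (volume_ne_top subset_rfl)]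
    exact ENNReal.ofReal_lt_top
  obtain ⟨t, ht, hte⟩ := exists_t C hε
  refine ⟨ENNReal.ofReal (Real.exp (-t)), ENNReal.ofReal_pos.2 (Real.exp_pos _), ?_⟩
  filter_upwards [hC] with n hn A hA hl hν
  have hA1 : Measurable (A.indicator (1 : Config → ℝ≥0∞)) := measurable_one.indicator hA
  have h1 := hn (A.indicator fun _ => t) (fun ω => ENNReal.ofReal (Real.exp t) * A.indicator 1 ω)
    (measurable_const.indicator hA) (fun ω => indicator_nonneg (fun _ _ => ht) ω) (fun ω => ?_)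
    (hA1.const_mul _) (fun ω => ?_) ?_
  · refine hte _ (le_trans (le_of_eq ?_) h1)
    rw [← lintegral_indicator_one hA, ← lintegral_const_mul _ hA1]
    refine lintegral_congr fun ω => ?_
    by_cases hω : ω ∈ A <;> simp [hω]
  · have h2 := hl.mono (D_mono (Nat.le_succ m)) ω
    by_cases hω : ω ∈ A
    · rw [indicator_of_mem hω, indicator_of_mem (h2.2 hω)]
    · rw [indicator_of_notMem hω, indicator_of_notMem fun h3 => hω (h2.1 h3)]
  · by_cases hω : ω ∈ A <;> simp [hω]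
  · rw [gibbsSum_const_mul ms_zero hD hA1, ← gm_apply ms_zero hD hA]
    refine (mul_le_mul_right hν.le _).trans ?_
    rw [← ENNReal.ofReal_mul (Real.exp_pos _).le, ← Real.exp_add]; simp

section
variable (h : Seq φ β z B g zs Ls ρ) {P : Measure Config}
  (hP : ∀ m A, MeasurableSet A → Loc (D m) A →
    Tendsto (fun n => avg φ β (zs n) (Ls n) A) atTop (𝓝 (P A)))
include h hP

theorem lim_le {m : ℕ} {f : Config → ℝ≥0∞} (hf : Measurable f)
    (hl : ∀ ω, f (restr (D m) ω) = f ω) {b : ℕ → ℝ≥0∞} {c : ℝ≥0∞} (hb : Tendsto b atTop (𝓝 c))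
    (hle : ∀ᶠ n in atTop, ∫⁻ ω, f ω ∂avg φ β (zs n) (Ls n) ≤ b n) : ∫⁻ ω, f ω ∂P ≤ c := by
  have _ := h
  refine (lintegral_le_liminf_loc (hP m) hf hl).trans ?_
  rw [← hb.liminf_eq]
  exact liminf_le_liminf hle

theorem lim_S_le {f : E3 → ℝ≥0∞} (hf : Measurable f) (hfin : ∫⁻ y, f y ≠ ⊤) :
    ∫⁻ ω, S f ω ∂P ≤ ρ * ∫⁻ y, f y := by
  have hj : ∀ j, Measurable ((shell j).indicator f) := fun j =>
    hf.indicator (measurableSet_shell j)
  have e : ∀ y, f y = ∑' j, (shell j).indicator f y := fun y => by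
    obtain ⟨j, hj⟩ := exists_shell y
    rw [tsum_eq_single j fun k hk => indicator_of_notMem (fun h1 => hk (shell_unique h1 hj)) _,
      indicator_of_mem hj]
  have e1 : ∀ ω, S f ω = ∑' j, S ((shell j).indicator f) ω := fun ω => by
    unfold S
    rw [ENNReal.tsum_comm]
    exact tsum_congr fun v => e v
  rw [lintegral_congr e1, lintegral_congr e,
    lintegral_tsum fun j => (measurable_S (hj j)).aemeasurable,
    lintegral_tsum fun j => (hj j).aemeasurable, ← ENNReal.tsum_mul_left]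
  refine ENNReal.tsum_le_tsum fun j => lim_le h hP (m := j + 1) (measurable_S (hj j))
    (fun ω => ?_) (ENNReal.Tendsto.mul_const h.tρ (Or.inr ?_))
    (Eventually.of_forall fun n => avg_S_le h.good h.hβ (h.z0 n) (h.L0 n) (hj j))
  · rw [S_restr, indicator_indicator, inter_eq_right.2 (show shell j ⊆ D (j + 1) from sdiff_subset)]
  · exact ne_top_of_le_ne_top hfin (lintegral_mono fun y => indicator_le_self _ _ _)

theorem lim_ae : ∀ᵐ ω ∂P, S (fun y => ENNReal.ofReal (g y)) ω ≠ ⊤ := by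
  have h1 := lim_S_le h hP h.dom.meas.ennreal_ofReal h.dom.int
  filter_upwards [ae_lt_top (measurable_S h.dom.meas.ennreal_ofReal)
    (ne_top_of_le_ne_top (ENNReal.mul_ne_top h.fin h.dom.int) h1)] with ω hω using hω.ne

theorem lim_invariant [IsProbabilityMeasure P] : Invariant P := fun v => by
  have := Measure.isProbabilityMeasure_map (μ := P) (measurable_shift v).aemeasurable
  refine (ext_loc fun m A hA hl => ?_).symm
  have hA1 : Measurable (A.indicator (1 : Config → ℝ≥0∞)) := measurable_one.indicator hA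
  obtain ⟨k, hk⟩ := exists_subset_D (B := tr (-v) (D m)) (by
    refine ((isBounded_D m).add (isBounded_singleton (x := -v))).subset fun y hy => ?_
    exact ⟨y - -v, hy, -v, rfl, by simp⟩)
  rw [← lintegral_indicator_one hA, lintegral_map hA1 (measurable_shift v)]
  have h1 := (hP m A hA hl).add ((tendsto_bad (norm_nonneg v)).comp h.tL)
  rw [add_zero] at h1
  refine lim_le h hP (m := k) (hA1.comp (measurable_shift v)) (fun ω => ?_) h1
    (Eventually.of_forall fun n => ?_)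
  · have h2 : shift v (restr (D k) ω) ∈ A ↔ shift v ω ∈ A := by
      rw [← hl, restr_shift, restr_restr hk, ← restr_shift, hl]
    simp only [Function.comp_apply]
    by_cases hω : shift v ω ∈ A
    · rw [indicator_of_mem hω, indicator_of_mem (h2.2 hω)]; rfl
    · rw [indicator_of_notMem hω, indicator_of_notMem fun h3 => hω (h2.1 h3)]
  · rw [← lintegral_indicator_one hA]
    exact avg_shift_le h.good h.hβ (h.z0 n) (h.L0 n) hA1
      (fun ω => indicator_le_self' (fun _ _ => zero_le) ω)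
      fun i => by simpa using PiLp.norm_apply_le v i

omit h hP in
theorem NL_restr {A A' : Set E3} (hs : A ⊆ A') (ω : Config) : NL A (restr A' ω) = NL A ω := by
  unfold NL
  congr 1
  exact Set.ext fun _ => ⟨fun hy => ⟨hy.1.1, hy.2⟩, fun hy => ⟨⟨hy.1, hs hy.2⟩, hy.2⟩⟩

theorem lim_intensity : intensity P = ρ := by
  have hb : IsBounded (box 1) := isBounded_cube 0 1
  have hB := measurableSet_box' 1
  have hs : box 1 ⊆ D 2 := fun x hx i => by
    push_cast; constructor <;> linarith [(hx i).1, (hx i).2]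
  have hN := measurable_NL' hB hb fun n => (n : ℝ≥0∞)
  refine le_antisymm (lim_le h hP (m := 2) hN (fun ω => by rw [NL_restr hs]) h.tρ
    (Eventually.of_forall fun n => (avg_intensity h.good h.hβ (h.z0 n) (h.L0 n)).le)) ?_
  refine ENNReal.le_of_forall_pos_le_add fun ε hε _ => ?_
  obtain ⟨ζ, C, hζ, hC⟩ := h.bound (m := 2) (by omega)
  obtain ⟨t, ht, hte⟩ := exists_t C (ENNReal.coe_pos.2 hε)
  obtain ⟨K, hK⟩ := exists_nat_ge (Real.exp (t + 1) * ζ * (volume (D 2)).toReal)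
  have hj : ∀ j, MeasurableSet {ω | j < NL (box 1) ω} := fun j =>
    measurable_NL hB hb measurableSet_Ioi
  have e : ∀ μ : Measure Config, ∫⁻ ω, ((min (NL (box 1) ω) K : ℕ) : ℝ≥0∞) ∂μ =
      ∑ j ∈ Finset.range K, μ {ω | j < NL (box 1) ω} := fun μ => by
    simp only [← lintegral_indicator_one (hj _)]
    rw [← lintegral_finsetSum _ fun j _ => measurable_one.indicator (hj j)]
    refine lintegral_congr fun ω => ?_
    simp only [indicator, mem_ofPred_eq, Pi.one_apply, Finset.sum_boole]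
    congr 1
    rw [← Finset.card_range (min _ _)]
    congr 1
    ext j
    simp only [Finset.mem_range, Finset.mem_filter]
    omega
  have h1 : Tendsto (fun n => ∫⁻ ω, ((min (NL (box 1) ω) K : ℕ) : ℝ≥0∞) ∂avg φ β (zs n) (Ls n) + ε)
      atTop (𝓝 (∫⁻ ω, ((min (NL (box 1) ω) K : ℕ) : ℝ≥0∞) ∂P + ε)) := by
    simp only [e]
    refine Tendsto.add_const _ (tendsto_finsetSum _ fun j _ => hP 2 _ (hj j) fun ω => ?_)
    simp only [mem_ofPred_eq, NL_restr hs]
  refine (le_of_tendsto_of_tendsto h.tρ h1 ?_).trans (add_le_add_left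
    (lintegral_mono fun ω => Nat.cast_le.2 (min_le_left _ _)) _)
  filter_upwards [hC] with n hn
  have hT := measurable_NL' hB hb fun k => hi K k * (k : ℝ≥0∞)
  have h2 := hn (fun ω => if NL (box 1) ω ≤ K then 0 else t * NL (box 1) ω)
    (fun ω => ENNReal.ofReal (Real.exp (-K)) * (ENNReal.ofReal (Real.exp (t + 1) ^ NL (D 2) ω) *
      (1 : Config → ℝ≥0∞) ω))
    (measurable_NL' hB hb fun k => if k ≤ K then (0 : ℝ) else t * k)
    (fun ω => by split_ifs <;> positivity) (fun ω => by rw [NL_restr hs])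
    (((measurable_NL' (measurableSet_D 2) (isBounded_D 2)
      fun k => ENNReal.ofReal (Real.exp (t + 1) ^ k)).mul measurable_one).const_mul _)
    (fun ω => ?_) ?_
  · have h3 : ∫⁻ ω, hi K (NL (box 1) ω) * (NL (box 1) ω : ℝ≥0∞) ∂avg φ β (zs n) (Ls n) ≤ ε := by
      refine hte _ (le_trans (le_of_eq ?_) h2)
      rw [← lintegral_const_mul _ hT]
      refine lintegral_congr fun ω => ?_
      unfold hi
      split_ifs
      · simp
      · rw [one_mul, ENNReal.ofReal_mul ht, ENNReal.ofReal_natCast]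
    show rho φ β (zs n) (Ls n) ≤ _
    rw [← avg_intensity h.good h.hβ (h.z0 n) (h.L0 n)]
    refine le_trans ?_ (add_le_add_right h3 _)
    rw [← lintegral_add_right _ hT]
    refine lintegral_mono fun ω => ?_
    unfold hi
    split_ifs with h4
    · rw [min_eq_left h4]; exact le_self_add
    · rw [one_mul]; exact le_add_self
  · split_ifs with h4
    · simp
    · refine le_trans ?_ le_add_self
      rw [Pi.one_apply, mul_one, ← ENNReal.ofReal_mul (Real.exp_pos _).le, ← Real.exp_nat_mul,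
        ← Real.exp_add]
      refine ENNReal.ofReal_le_ofReal (Real.exp_le_exp.2 ?_)
      have h5 : NL (box 1) ω ≤ NL (D 2) ω :=
        Set.ncard_le_ncard (inter_subset_inter_right _ hs) (ω.fin _ (isBounded_D 2))
      have h6 : (NL (box 1) ω : ℝ) ≤ NL (D 2) ω := by exact_mod_cast h5
      have h7 : (K : ℝ) ≤ NL (box 1) ω := by exact_mod_cast (not_le.1 h4).le
      nlinarith
  · have h4 : Measurable fun ω => ENNReal.ofReal (Real.exp (t + 1) ^ NL (D 2) ω) *
        (1 : Config → ℝ≥0∞) ω := (measurable_NL' (measurableSet_D 2) (isBounded_D 2)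
      fun k => ENNReal.ofReal (Real.exp (t + 1) ^ k)).mul measurable_one
    rw [gibbsSum_const_mul ms_zero (measurableSet_D 2) h4,
      ← gibbsSum_mul_z (measurableSet_D 2) _ _ (Real.exp_pos _).le,
      poisson_one (by positivity) (volume_ne_top subset_rfl),
      ← ENNReal.ofReal_mul (Real.exp_pos _).le, ← Real.exp_add, ← ENNReal.ofReal_one]
    exact ENNReal.ofReal_le_ofReal (Real.exp_le_one_iff.2 (by linarith))

theorem lim_Phi_le (hΛ : MeasurableSet Λ) (hb : IsBounded Λ) {A : Set Config}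
    (hA : MeasurableSet A) {mA : ℕ} (hl : Loc (D mA) A) (K : ℕ) {η : ℝ} (hη : 0 < η) :
    ∫⁻ ω, Phi φ β z Λ A K ω ∂P ≤ ENNReal.ofReal (Real.exp (η + β * η) ^ K) ^ 2 * P A +
      ((K + 1 : ℕ) : ℝ≥0∞)⁻¹ * (ρ * volume Λ) := by
  obtain ⟨m₀, h0⟩ := exists_subset_D hb
  obtain ⟨m₁, hm, hd⟩ := h.dom.dom m₀
  have hΦ := measurable_Phi (β := β) (z := z) h.good.ms hΛ hb hA K
  have hΦm : ∀ m, Measurable fun ω => Phi φ β z Λ A K (restr (D m) ω) := fun m =>
    hΦ.comp (measurable_restr (measurableSet_D m))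
  have hA1 : Measurable (A.indicator (1 : Config → ℝ≥0∞)) := measurable_one.indicator hA
  have hV := volume_ne_top h0
  have hη' : ENNReal.ofReal η ≠ 0 := (ENNReal.ofReal_pos.2 hη).ne'
  have step : ∀ᶠ m in atTop, ∫⁻ ω, Phi φ β z Λ A K (restr (D m) ω) ∂P ≤
      ENNReal.ofReal (Real.exp (η + β * η) ^ K) ^ 2 * P A +
        ((K + 1 : ℕ) : ℝ≥0∞)⁻¹ * (ρ * volume Λ) + (ENNReal.ofReal η)⁻¹ *
          (ρ * ∫⁻ y, (D m)ᶜ.indicator (fun y => ENNReal.ofReal (g y)) y) := by
    filter_upwards [eventually_ge_atTop m₁, eventually_ge_atTop mA] with m h3 h4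
    have hs := h0.trans (D_mono (hm.trans h3))
    have hI : ∫⁻ y, (D m)ᶜ.indicator (fun y => ENNReal.ofReal (g y)) y ≠ ⊤ :=
      ne_top_of_le_ne_top h.dom.int (lintegral_mono fun y => indicator_le_self _ _ _)
    have hτ : Measurable (tau g m) := measurable_S (measurable_tail h.dom.meas m)
    have t1 := ENNReal.Tendsto.const_mul (a := ENNReal.ofReal (Real.exp (η + β * η) ^ K) ^ 2)
      (hP mA A hA hl) (Or.inr (ENNReal.pow_ne_top ENNReal.ofReal_ne_top))
    have t2 := ENNReal.Tendsto.const_mul (a := ((K + 1 : ℕ) : ℝ≥0∞)⁻¹)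
      (ENNReal.Tendsto.mul_const h.tρ (Or.inr hV)) (Or.inr (by simp))
    have t3 := ENNReal.Tendsto.const_mul (a := (ENNReal.ofReal η)⁻¹)
      (ENNReal.Tendsto.mul_const h.tρ (Or.inr hI)) (Or.inr (ENNReal.inv_ne_top.2 hη'))
    have t4 := ((t1.add t2).add t3).add ((tendsto_bad (Nat.cast_nonneg m)).comp h.tL)
    rw [add_zero] at t4
    refine lim_le h hP (m := m) (hΦm m) (fun ω => by rw [restr_restr subset_rfl]) t4 ?_
    have hz := h.hz
    have he : 1 < Real.exp η := Real.one_lt_exp_iff.2 hη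
    filter_upwards [h.tz.eventually (eventually_le_nhds (show z < Real.exp η * z by nlinarith)),
      (h.tz.const_mul (Real.exp η)).eventually
        (eventually_ge_nhds (show z < Real.exp η * z by nlinarith))] with n h5 h6
    have hhi := measurable_NL' hΛ hb (hi K)
    have hH : MeasurableSet {ω | ENNReal.ofReal η < tau g m ω} := hτ measurableSet_Ioi
    refine (avg_dlr_le h.good h.hβ (h.z0 n) (h.L0 n) hΛ hs (hΦm m) ((hA1.const_mul _).add hhi)
      (measurable_one.indicator hH) (fun ω => Phi_le_one hΛ _ _ _) fun ω hω =>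
        Phi_restr_le h.good h.hβ hΛ h.dom.nonneg hs
          (fun x hx y hy => hd x (h0 hx) y fun h7 => hy (D_mono h3 h7)) hA
          (hl.mono (D_mono h4)) K hz.le (h.z0 n) hη.le h6 h5 hω).trans ?_
    refine add_le_add_left (add_le_add ?_ ?_) _
    · simp only [Pi.add_apply]
      rw [lintegral_add_right _ hhi, lintegral_const_mul _ hA1, lintegral_indicator_one hA]
      refine add_le_add_right ?_ _
      have h7 := avg_S_le h.good h.hβ (h.z0 n) (h.L0 n)
        (g := Λ.indicator fun _ => 1) (measurable_const.indicator hΛ)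
      simp only [S_indicator hb] at h7
      rw [lintegral_indicator_const hΛ, one_mul] at h7
      refine le_trans ?_ (mul_le_mul_right h7 _)
      rw [← lintegral_const_mul _ (measurable_NL' hΛ hb fun n => (n : ℝ≥0∞))]
      refine lintegral_mono fun ω => ?_
      unfold hi
      split_ifs with h8
      · exact zero_le
      · rw [← ENNReal.div_eq_inv_mul, ENNReal.le_div_iff_mul_le (Or.inl (by simp))
          (Or.inl (by simp)), one_mul]
        exact Nat.cast_le.2 (by omega)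
    · refine le_trans ?_ (mul_le_mul_right (avg_S_le h.good h.hβ (h.z0 n) (h.L0 n)
        (measurable_tail h.dom.meas m)) _)
      show _ ≤ _ * ∫⁻ ω, tau g m ω ∂_
      rw [← lintegral_const_mul _ hτ]
      refine lintegral_mono fun ω => indicator_apply_le' (fun hω => ?_) fun _ => zero_le
      rw [← ENNReal.div_eq_inv_mul, ENNReal.le_div_iff_mul_le (Or.inl hη')
        (Or.inl ENNReal.ofReal_ne_top), Pi.one_apply, one_mul]
      exact le_of_lt hω
  have t5 := ENNReal.Tendsto.const_mul (a := (ENNReal.ofReal η)⁻¹)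
    (ENNReal.Tendsto.const_mul (a := ρ) (tendsto_tail h.dom.meas h.dom.int) (Or.inr h.fin))
    (Or.inr (ENNReal.inv_ne_top.2 hη'))
  have t6 := t5.const_add (ENNReal.ofReal (Real.exp (η + β * η) ^ K) ^ 2 * P A +
    ((K + 1 : ℕ) : ℝ≥0∞)⁻¹ * (ρ * volume Λ))
  rw [mul_zero, mul_zero, add_zero] at t6
  rw [← t6.liminf_eq]
  refine le_trans ?_ ((lintegral_liminf_le hΦm).trans (liminf_le_liminf step))
  refine lintegral_mono_ae ?_
  filter_upwards [lim_ae h hP] with ω hω
  exact Phi_le_liminf h.good h.hβ h.hz.le hΛ hb h.dom hA hl K hω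

theorem lim_dlr_le [IsProbabilityMeasure P] (hΛ : MeasurableSet Λ) (hb : IsBounded Λ)
    {A : Set Config} (hA : MeasurableSet A) {mA : ℕ} (hl : Loc (D mA) A) :
    ∫⁻ ω, gibbsSum φ β z Λ ω (A.indicator 1) / gibbsSum φ β z Λ ω 1 ∂P ≤ P A := by
  obtain ⟨m₀, h0⟩ := exists_subset_D hb
  have step : ∀ K, ∫⁻ ω, Phi φ β z Λ A K ω ∂P ≤
      P A + ((K + 1 : ℕ) : ℝ≥0∞)⁻¹ * (ρ * volume Λ) := fun K => by
    have h1 : Tendsto (fun η : ℝ => Real.exp (η + β * η) ^ K) (𝓝[>] 0)
        (𝓝 (Real.exp (0 + β * 0) ^ K)) :=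
      tendsto_nhdsWithin_of_tendsto_nhds (Continuous.tendsto (by fun_prop) 0)
    have h2 := (ENNReal.Tendsto.mul_const (b := P A) (ENNReal.Tendsto.pow (n := 2)
      (ENNReal.tendsto_ofReal h1)) (Or.inr (measure_ne_top _ _))).add_const
        (((K + 1 : ℕ) : ℝ≥0∞)⁻¹ * (ρ * volume Λ))
    simp only [mul_zero, add_zero, Real.exp_zero, one_pow, ENNReal.ofReal_one, one_mul] at h2
    refine ge_of_tendsto h2 ?_
    filter_upwards [self_mem_nhdsWithin] with η hη using lim_Phi_le h hP hΛ hb hA hl K hη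
  have t1 := (ENNReal.Tendsto.mul_const (b := ρ * volume Λ)
    (ENNReal.tendsto_inv_nat_nhds_zero.comp (tendsto_add_atTop_nat 1))
    (Or.inr (ENNReal.mul_ne_top h.fin (volume_ne_top h0)))).const_add (P A)
  rw [zero_mul, add_zero] at t1
  rw [← t1.liminf_eq]
  refine le_trans ?_ ((lintegral_liminf_le fun K => measurable_Phi (β := β) (z := z) h.good.ms
    hΛ hb hA K).trans (liminf_le_liminf (Eventually.of_forall step)))
  exact lintegral_mono fun ω => (tendsto_Phi h.good.ms hΛ hb hA ω).liminf_eq.ge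

theorem lim_gibbs [hp : IsProbabilityMeasure P] : IsGibbs φ β z P := by
  refine ⟨hp, (lim_ae h hP).mono fun ω hω => admissible h.dom hω, fun Λ hΛ hb => ?_⟩
  have hfin : ∀ᵐ ω ∂P, gibbsSum φ β z Λ ω 1 ≠ ⊤ :=
    (lim_ae h hP).mono fun ω hω => gibbsSum_ne_top' h.good h.hβ h.hz.le hΛ hb h.dom hω
  refine ⟨hfin, ?_⟩
  have e : ∀ ω A, MeasurableSet A → ((gibbsSum φ β z Λ ω 1)⁻¹ • gm φ β z Λ ω) A =
      gibbsSum φ β z Λ ω (A.indicator 1) / gibbsSum φ β z Λ ω 1 := fun ω A hA => by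
    rw [Measure.smul_apply, gm_apply h.good.ms hΛ hA, smul_eq_mul, ENNReal.div_eq_inv_mul]
  have hk : Measurable fun ω => (gibbsSum φ β z Λ ω 1)⁻¹ • gm φ β z Λ ω := by
    refine Measure.measurable_of_measurable_coe _ fun A hA => ?_
    simp only [e _ A hA]
    exact (measurable_gibbsSum h.good.ms hΛ (measurable_one.indicator hA)).div
      (measurable_gibbsSum h.good.ms hΛ measurable_one)
  have hQ : ∀ A, MeasurableSet A →
      (P.bind fun ω => (gibbsSum φ β z Λ ω 1)⁻¹ • gm φ β z Λ ω) A =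
        ∫⁻ ω, gibbsSum φ β z Λ ω (A.indicator 1) / gibbsSum φ β z Λ ω 1 ∂P := fun A hA => by
    rw [Measure.bind_apply hA hk.aemeasurable]
    simp only [e _ A hA]
  have : IsProbabilityMeasure (P.bind fun ω => (gibbsSum φ β z Λ ω 1)⁻¹ • gm φ β z Λ ω) := by
    refine ⟨?_⟩
    rw [hQ _ MeasurableSet.univ, indicator_univ, lintegral_congr_ae (g := fun _ => 1)
      (hfin.mono fun ω hω => ENNReal.div_self (gibbsSum_ne_zero _) hω)]
    simp
  intro A hA
  rw [← hQ A hA]
  congr 1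
  exact ext_loc fun m A hA hl => by rw [hQ A hA]; exact lim_dlr_le h hP hΛ hb hA hl

end

theorem Seq.exists_gibbs (h : Seq φ β z B g zs Ls ρ) :
    ∃ P : Measure Config, IsGibbs φ β z P ∧ Invariant P ∧ intensity P = ρ := by
  obtain ⟨P, hp, s, hs, hP⟩ := h.exists_limit
  exact ⟨P, lim_gibbs (h.sub hs) hP, lim_invariant (h.sub hs) hP, lim_intensity (h.sub hs) hP⟩

end Vale.Agent.N171G
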